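import Vale.Agent.P112.H597.Star
import Vale.Agent.P112.H22.Exc

/-!
# P112 / H597: the arc hypothesis for tree tops, wide intervals

The same as `H22/Exc.lean`, but the tubes are only required to see the point `z` over the interval
`J3` of three times the length (`z.1 ∈ J3 (S.k t) (S.m t)`), and no nesting of intervals is used:
`i` is shorter than `t` means `S.k t ≤ S.k i`.

* `exc3_meas`, `exc3_vol` : `|Exc3 t| ≤ 2 * 2 ^ (-(m / K)) * 35 l_t * 2 B w` for `48 B ≤ δ K`;
* `bad3_vol`, `exists_good3` : the points where at least `c` tubes are exceptional;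
* `arc_of_rep3` : the hypothesis `Arc (2 m)` of the heart for tops with nonexceptional
  representatives.
-/

open MeasureTheory Set
open scoped ENNReal

set_option linter.dupNamespace false
set_option linter.unusedSectionVars false

noncomputable section

namespace Vale.Agent.P112.H597

open Vale.Agent.P112.H310 Vale.Agent.P112.H295 Vale.Agent.P112.H22 Vale.Agent.P112.H22.Exc
open Vale.Agent.P112.H30

/-! ## 1. the star intervals (not scaled) -/

/-- the star interval: the cell of length `16 * 2 ^ (-k)` which contains `J3 k m` -/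
def IS (k : ℕ) (m : ℤ) : Set ℝ := {x | x / 16 - sh (gr k m) ∈ D k (ce k m)}

theorem J3_subset_IS (k : ℕ) (m : ℤ) : J3 k m ⊆ IS k m := fun _ hx => mem_ce hx

theorem measurableSet_IS (k : ℕ) (m : ℤ) : MeasurableSet (IS k m) :=
  (measurableSet_D k (ce k m)).preimage
    (show Measurable fun x : ℝ => x / 16 - sh (gr k m) by fun_prop)

theorem volume_IS (k : ℕ) (m : ℤ) : volume (IS k m) = ENNReal.ofReal (16 * (2 : ℝ)⁻¹ ^ k) := by
  have h1 : IS k m = (fun x : ℝ => 16⁻¹ * x) ⁻¹' ((fun x : ℝ => x + -sh (gr k m)) ⁻¹'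
      (D k (ce k m))) := by
    ext x
    simp only [IS, mem_ofPred_eq, mem_preimage]
    rw [show x / 16 - sh (gr k m) = 16⁻¹ * x + -sh (gr k m) by ring]
  rw [h1, Real.volume_preimage_mul_left (by norm_num), measure_preimage_add_right, volume_D,
    ← ENNReal.ofReal_mul (by positivity)]
  congr 1
  rw [inv_inv, abs_of_pos (by norm_num)]

theorem IS_diam {k : ℕ} {m : ℤ} {x y : ℝ} (hx : x ∈ IS k m) (hy : y ∈ IS k m) :
    |x - y| ≤ 16 * (2 : ℝ)⁻¹ ^ k := by
  have h := abs_sub_le_of_mem_D hx hy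
  have e : x / 16 - sh (gr k m) - (y / 16 - sh (gr k m)) = (x - y) / 16 := by ring
  rw [e, abs_div, abs_of_pos (by norm_num : (0 : ℝ) < 16)] at h
  linarith

theorem IS_nd {k k' : ℕ} {m m' : ℤ} (h : gr k m = gr k' m') : Nd (IS k m) (IS k' m') := by
  have key : ∀ {k k' : ℕ} {m m' : ℤ}, gr k m = gr k' m' → k' ≤ k →
      ¬ Disjoint (IS k m) (IS k' m') → IS k m ⊆ IS k' m' := by
    intro k k' m m' h hk hd
    rw [Set.not_disjoint_iff] at hd
    obtain ⟨x, hx, hx'⟩ := hd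
    intro y hy
    have hx2 : x / 16 - sh (gr k m) ∈ D k' (ce k' m') := by rw [h]; exact hx'
    have := D_subset_of_mem hk hx hx2 hy
    rw [h] at this
    exact this
  by_cases hd : Disjoint (IS k m) (IS k' m')
  · exact Or.inr (Or.inr hd)
  · rcases le_total k' k with hk | hk
    · exact Or.inl (key h hk hd)
    · exact Or.inr (Or.inl (key h.symm hk (fun h' => hd h'.symm)))

/-! ## 2. the exceptional sets -/

variable {ι : Type*} [Fintype ι] (S : SysV ι)

/-- the wide dilated tube -/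
def Wd (B : ℝ) (t : ι) : Set (ℝ × ℝ) := Reg (J3 (S.k t) (S.m t)) (S.line t) (B * S.w)

theorem measurableSet_Wd (B : ℝ) (t : ι) : MeasurableSet (Wd S B t) :=
  measurableSet_Reg (measurableSet_J3 _ _) (S.line_meas t) _

/-- tube `i` is not longer than tube `t` and separated from it -/
def Sepa3 (B η lam : ℝ) (t i : ι) : Prop :=
  S.k t ≤ S.k i ∧ 128 * S.l i ≤ η * lam ∧
    8 * ((S.A + 3 * B / 2) * S.w / S.l i) ≤ η * |S.s i - S.s t|

/-- the wide dilated tube `i`, if it is separated from `t` -/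
def Yr3 (B η lam : ℝ) (t i : ι) : Set (ℝ × ℝ) :=
  {z : ℝ × ℝ | Sepa3 S B η lam t i ∧ z ∈ Wd S B i}

open Classical in
/-- the tubes through `z` which are not longer than `t` and separated from `t` -/
def Cr3 (B η lam : ℝ) (t : ι) (z : ℝ × ℝ) : Finset ι :=
  Finset.univ.filter fun i => z ∈ Yr3 S B η lam t i

/-- the exceptional set of tube `t` -/
def Exc3 (B η lam : ℝ) (m : ℕ) (t : ι) : Set (ℝ × ℝ) :=
  {z | z ∈ Wd S B t ∧ ¬ Cov S.s η (S.s t) (2 * m) (Cr3 S B η lam t z)}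

theorem exc3_meas (B η lam : ℝ) (m : ℕ) (t : ι) : MeasurableSet (Exc3 S B η lam m t) := by
  have h1 : MeasurableSet (Wd S B t) := measurableSet_Wd S B t
  have h2 : MeasurableSet {z | ¬ Cov S.s η (S.s t) (2 * m) (Cr3 S B η lam t z)} := by
    unfold Cr3
    refine meas_fin (Yr3 S B η lam t) (fun i => ?_)
      (fun X => ¬ Cov S.s η (S.s t) (2 * m) X)
    unfold Yr3
    by_cases h : Sepa3 S B η lam t i
    · simp only [h, true_and]
      exact measurableSet_Wd S B i
    · simp only [h, false_and]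
      exact MeasurableSet.empty
  exact h1.inter h2

/-- the big interval around the interval of `t` -/
def TT (t : ι) : Set ℝ := Icc (((S.m t : ℝ) - 17) / 2 ^ S.k t) (((S.m t : ℝ) + 18) / 2 ^ S.k t)

theorem volume_TT (t : ι) : volume (TT S t) = ENNReal.ofReal (35 * S.l t) := by
  have hp : (0 : ℝ) < 2 ^ S.k t := by positivity
  rw [TT, Real.volume_Icc]
  congr 1
  unfold SysV.l
  rw [inv_pow]
  field_simp
  ring

theorem IS_subset_TT {t i : ι} (hk : S.k t ≤ S.k i) {x : ℝ} (hx : x ∈ J3 (S.k t) (S.m t))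
    (hxi : x ∈ IS (S.k i) (S.m i)) : IS (S.k i) (S.m i) ⊆ TT S t := by
  intro y hy
  have h1 := IS_diam hy hxi
  have hp : (0 : ℝ) < 2 ^ S.k t := by positivity
  have h2 : (2 : ℝ)⁻¹ ^ S.k i ≤ (2 : ℝ)⁻¹ ^ S.k t :=
    pow_le_pow_of_le_one (by norm_num) (by norm_num) hk
  have h3 : |y - x| ≤ 16 * (1 / 2 ^ S.k t) := by
    have e : (2 : ℝ)⁻¹ ^ S.k t = 1 / 2 ^ S.k t := by rw [inv_pow, one_div]
    rw [← e]; linarith
  rw [abs_le] at h3
  obtain ⟨h4, h5⟩ := hx
  have e1 : ((S.m t : ℝ) - 17) / 2 ^ S.k t = ((S.m t : ℝ) - 1) / 2 ^ S.k t -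
    16 * (1 / 2 ^ S.k t) := by ring
  have e2 : ((S.m t : ℝ) + 18) / 2 ^ S.k t = ((S.m t : ℝ) + 2) / 2 ^ S.k t +
    16 * (1 / 2 ^ S.k t) := by ring
  constructor
  · rw [e1]; linarith [h3.1]
  · rw [e2]; linarith [h3.2]

/-- one line, one grid -/
theorem exc3_grid {B η lam : ℝ} (hB : 2 ≤ B) (hη0 : 0 < η) (hη1 : η ≤ 1 / 4)
    (hlam0 : 0 < lam) (hlam : lam * S.ε ≤ 1) {K : ℕ}
    (hK0 : 0 < K) (hK : 48 * B ≤ S.δ * K) (m : ℕ) (t : ι) (v : ℝ) (b : Bool) :
    volume {x ∈ TT S t | ¬ ∃ C : Finset ℝ, C.card < m ∧ ∀ i,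
      Sepa3 S B η lam t i → gr (S.k i) (S.m i) = b → IS (S.k i) (S.m i) ⊆ TT S t →
      x ∈ IS (S.k i) (S.m i) → |(v + S.line t x) - S.line i x| ≤ B * S.w →
      ∃ c' ∈ C, |S.s i - c'| ≤ 4 * η * |c' - S.s t|} ≤
      (1 / 2) ^ (m / K) * volume (TT S t) := by
  classical
  have hw := S.w_pos
  have hA := S.one_le_A
  have hδ := S.δ_pos
  have hB0 : 0 < B := by linarith
  set F : Finset ι := Finset.univ.filter
    fun i => Sepa3 S B η lam t i ∧ gr (S.k i) (S.m i) = b with hF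
  have hFm : ∀ i ∈ F, Sepa3 S B η lam t i ∧ gr (S.k i) (S.m i) = b :=
    fun i hi => (Finset.mem_filter.1 hi).2
  have key := arc_lip F (fun i => IS (S.k i) (S.m i)) (fun i => 16 * S.l i) S.s S.b S.u
    S.u_meas hlam0
    (fun x y y' => by
      have h1 := S.u_lip x y y'
      have h2 := abs_nonneg (y - y')
      calc lam * |S.u x y - S.u x y'| ≤ lam * (S.ε * |y - y'|) := by gcongr
        _ = lam * S.ε * |y - y'| := by ring
        _ ≤ 1 * |y - y'| := by gcongr
        _ = |y - y'| := one_mul _)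
    (w := B * S.w / 2) (A := 32 * S.A / B) (d := S.δ / (8 * B)) (η := η) (s0 := S.s t)
    (c0 := v + S.b t) (T := TT S t) measurableSet_Icc (by positivity) (by positivity)
    hη0 hη1 (by positivity) (fun i _ => measurableSet_IS _ _)
    (fun i hi j hj => IS_nd ((hFm i hi).2.trans (hFm j hj).2.symm))
    (fun i _ x hx x' hx' => IS_diam hx hx')
    (fun i _ => volume_IS _ _) (fun i _ => by have := S.l_pos i; positivity)
    (fun i hi => by have := (hFm i hi).1.2.1; linarith)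
    (fun i hi => ?_) (fun i hi => ?_) K hK0 ?_ m
  · refine (measure_mono ?_).trans key
    intro x hx
    obtain ⟨hx1, hx2⟩ := hx
    refine ⟨hx1, fun hC => hx2 ?_⟩
    obtain ⟨C, hC1, hC2⟩ := hC
    refine ⟨C, hC1, fun i h1 h2 h3 h4 h5 => ?_⟩
    refine hC2 i (Finset.mem_filter.2 ⟨Finset.mem_univ _, h1, h2⟩) h3 h4 ?_
    have : (S.b i + S.s i * x) - (v + S.b t + S.s t * x) =
      -((v + S.line t x) - S.line i x) := by unfold SysV.line; ring
    rw [this, abs_neg]
    linarith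
  · -- separation
    have h := (hFm i hi).1.2.2
    have hl := S.l_pos i
    refine le_trans ?_ h
    have e : (32 * S.A / B + 3) * (B * S.w / 2) / (16 * S.l i) =
        (S.A + 3 * B / 32) * S.w / S.l i := by
      field_simp
      ring
    rw [e]
    have : (S.A + 3 * B / 32) * S.w / S.l i ≤ (S.A + 3 * B / 2) * S.w / S.l i := by
      gcongr
      linarith
    linarith
  · -- density
    have hd := S.V_dens i
    have hr := S.vr_R i
    have hl := S.l_pos i
    unfold SysV.R SysV.I SysV.line at hr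
    rw [hr] at hd
    have hVle : S.V i ⊆ {z : ℝ × ℝ | z.1 ∈ IS (S.k i) (S.m i) ∧
        |z.2 - (S.b i + S.s i * z.1)| ≤ B * S.w / 2 ∧
        |S.u z.1 z.2 - S.s i| ≤ 32 * S.A / B * (B * S.w / 2) / (16 * S.l i)} := by
      intro z hz
      have h1 := S.V_sub i hz
      have h2 := S.V_slope i z hz
      refine ⟨J3_subset_IS _ _ (D_subset_J3 _ _ h1.1), h1.2.trans (by nlinarith), ?_⟩
      have e : 32 * S.A / B * (B * S.w / 2) / (16 * S.l i) = S.A * S.w / S.l i := by
        field_simp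
        ring
      rw [e]; exact h2
    refine le_trans ?_ (measure_mono hVle)
    rw [← ENNReal.ofReal_toReal (S.V_fin i)]
    apply ENNReal.ofReal_le_ofReal
    refine le_trans (le_of_eq ?_) hd
    field_simp
    ring
  · -- K
    rw [div_mul_eq_mul_div, le_div_iff₀ (by positivity)]
    nlinarith

/-- one line -/
theorem exc3_line {B η lam : ℝ} (hB : 2 ≤ B) (hη0 : 0 < η) (hη1 : η ≤ 1 / 4)
    (hlam0 : 0 < lam) (hlam : lam * S.ε ≤ 1) {K : ℕ}
    (hK0 : 0 < K) (hK : 48 * B ≤ S.δ * K) (m : ℕ) (t : ι) (v : ℝ) :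
    volume {x | (x, v + S.line t x) ∈ Exc3 S B η lam m t} ≤
      2 * ((1 / 2) ^ (m / K) * volume (TT S t)) := by
  classical
  have hg := fun b => exc3_grid S hB hη0 hη1 hlam0 hlam hK0 hK m t v b
  rw [two_mul]
  refine le_trans (measure_mono ?_) ((measure_union_le _ _).trans (add_le_add (hg false) (hg true)))
  intro x hx
  obtain ⟨hx1, hx2⟩ := hx
  have hJ : x ∈ J3 (S.k t) (S.m t) := hx1.1
  have hT : x ∈ TT S t := by
    have hp : (0 : ℝ) < 2 ^ S.k t := by positivity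
    obtain ⟨h4, h5⟩ := hJ
    constructor
    · refine le_trans ?_ h4
      gcongr
      norm_num
    · refine h5.le.trans ?_
      gcongr
      norm_num
  by_contra hcon
  rw [mem_union, not_or] at hcon
  obtain ⟨h0, h1⟩ := hcon
  have h0' : ∃ C : Finset ℝ, C.card < m ∧ ∀ i,
      Sepa3 S B η lam t i → gr (S.k i) (S.m i) = false → IS (S.k i) (S.m i) ⊆ TT S t →
      x ∈ IS (S.k i) (S.m i) → |(v + S.line t x) - S.line i x| ≤ B * S.w →
      ∃ c' ∈ C, |S.s i - c'| ≤ 4 * η * |c' - S.s t| := by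
    by_contra h
    exact h0 ⟨hT, h⟩
  have h1' : ∃ C : Finset ℝ, C.card < m ∧ ∀ i,
      Sepa3 S B η lam t i → gr (S.k i) (S.m i) = true → IS (S.k i) (S.m i) ⊆ TT S t →
      x ∈ IS (S.k i) (S.m i) → |(v + S.line t x) - S.line i x| ≤ B * S.w →
      ∃ c' ∈ C, |S.s i - c'| ≤ 4 * η * |c' - S.s t| := by
    by_contra h
    exact h1 ⟨hT, h⟩
  obtain ⟨C0, hC0, hc0⟩ := h0'
  obtain ⟨C1, hC1, hc1⟩ := h1'
  refine hx2 ⟨C0 ∪ C1, ?_, fun i hi => ?_⟩
  · have := Finset.card_union_le C0 C1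
    omega
  · unfold Cr3 at hi
    rw [Finset.mem_filter] at hi
    obtain ⟨_, hs, hW⟩ := hi
    have hxi : x ∈ IS (S.k i) (S.m i) := J3_subset_IS _ _ hW.1
    have hsub := IS_subset_TT S hs.1 hJ hxi
    have hd : |(v + S.line t x) - S.line i x| ≤ B * S.w := hW.2
    cases hb : gr (S.k i) (S.m i)
    · obtain ⟨c', hc', h⟩ := hc0 i hs hb hsub hxi hd
      exact ⟨c', Finset.mem_union_left _ hc', h⟩
    · obtain ⟨c', hc', h⟩ := hc1 i hs hb hsub hxi hd
      exact ⟨c', Finset.mem_union_right _ hc', h⟩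

theorem exc3_vol {B η lam : ℝ} (hB : 2 ≤ B) (hη0 : 0 < η) (hη1 : η ≤ 1 / 4)
    (hlam0 : 0 < lam) (hlam : lam * S.ε ≤ 1) {K : ℕ}
    (hK0 : 0 < K) (hK : 48 * B ≤ S.δ * K) (m : ℕ) (t : ι) :
    volume (Exc3 S B η lam m t) ≤
      (1 / 2) ^ (m / K) * ENNReal.ofReal (70 * S.l t * (2 * (B * S.w))) := by
  classical
  have hw := S.w_pos
  have hm := exc3_meas S B η lam m t
  have mline : Measurable (S.line t) := S.line_meas t
  have hm2 : MeasurableSet {p : ℝ × ℝ | (p.1, p.2 + S.line t p.1) ∈ Exc3 S B η lam m t} := by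
    refine hm.preimage ?_
    exact measurable_fst.prodMk (measurable_snd.add (mline.comp measurable_fst))
  have e1 : volume (Exc3 S B η lam m t) =
      volume {p : ℝ × ℝ | (p.1, p.2 + S.line t p.1) ∈ Exc3 S B η lam m t} := by
    rw [Measure.volume_eq_prod, Measure.prod_apply hm, Measure.prod_apply hm2]
    refine lintegral_congr fun x => ?_
    have : Prod.mk x ⁻¹' {p : ℝ × ℝ | (p.1, p.2 + S.line t p.1) ∈ Exc3 S B η lam m t} =
      (fun y => y + S.line t x) ⁻¹' (Prod.mk x ⁻¹' Exc3 S B η lam m t) := by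
      ext y; simp
    rw [this, measure_preimage_add_right]
  rw [e1, Measure.volume_eq_prod, Measure.prod_apply_symm hm2]
  calc ∫⁻ v, volume ((fun x => (x, v)) ⁻¹'
        {p : ℝ × ℝ | (p.1, p.2 + S.line t p.1) ∈ Exc3 S B η lam m t})
      ≤ ∫⁻ v, (Icc (-(B * S.w)) (B * S.w)).indicator
          (fun _ => 2 * ((1 / 2) ^ (m / K) * volume (TT S t))) v := by
        refine lintegral_mono fun v => ?_
        by_cases hv : v ∈ Icc (-(B * S.w)) (B * S.w)
        · rw [indicator_of_mem hv]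
          exact exc3_line S hB hη0 hη1 hlam0 hlam hK0 hK m t v
        · rw [indicator_of_notMem hv]
          refine le_of_eq ?_
          have : ((fun x => (x, v)) ⁻¹'
            {p : ℝ × ℝ | (p.1, p.2 + S.line t p.1) ∈ Exc3 S B η lam m t}) = ∅ := by
            ext x
            simp only [mem_preimage, mem_ofPred_eq, mem_empty_iff_false, iff_false]
            intro h
            apply hv
            have h2 := h.1.2
            simp only [add_sub_cancel_right] at h2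
            exact abs_le.1 h2
          rw [this, measure_empty]
    _ = 2 * ((1 / 2) ^ (m / K) * volume (TT S t)) * ENNReal.ofReal (2 * (B * S.w)) := by
        rw [lintegral_indicator measurableSet_Icc, setLIntegral_const, Real.volume_Icc]
        congr 2; ring
    _ = _ := by
        rw [volume_TT]
        have hl := S.l_pos t
        have e2 : (2 : ℝ≥0∞) = ENNReal.ofReal 2 := by simp
        rw [e2]
        rw [show ENNReal.ofReal 2 * ((1 / ENNReal.ofReal 2) ^ (m / K) *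
            ENNReal.ofReal (35 * S.l t)) * ENNReal.ofReal (2 * (B * S.w)) =
          (1 / ENNReal.ofReal 2) ^ (m / K) * (ENNReal.ofReal 2 * ENNReal.ofReal (35 * S.l t) *
            ENNReal.ofReal (2 * (B * S.w))) by ring]
        rw [← ENNReal.ofReal_mul (by norm_num), ← ENNReal.ofReal_mul (by positivity)]
        congr 2
        ring

/-! ## 3. the bad points -/

/-- **bad points**: at least `c` tubes are exceptional. -/
theorem bad3_vol {B η lam : ℝ} (hB : 2 ≤ B) (hη0 : 0 < η) (hη1 : η ≤ 1 / 4)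
    (hlam0 : 0 < lam) (hlam : lam * S.ε ≤ 1) {K : ℕ}
    (hK0 : 0 < K) (hK : 48 * B ≤ S.δ * K) (m c : ℕ) :
    (c : ℝ≥0∞) * volume {z | ∃ g : Finset ι, c ≤ g.card ∧ ∀ t ∈ g, z ∈ Exc3 S B η lam m t} ≤
      (1 / 2) ^ (m / K) * ENNReal.ofReal (70 * B * ∑ t, volume.real (S.R t)) := by
  have h := averaging volume Finset.univ (fun t => Exc3 S B η lam m t)
    (fun t _ => exc3_meas S B η lam m t)
    {z | ∃ g : Finset ι, c ≤ g.card ∧ ∀ t ∈ g, z ∈ Exc3 S B η lam m t} c
    (fun z hz => by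
      obtain ⟨g, hg, h⟩ := hz
      exact ⟨g, Finset.subset_univ _, hg, h⟩)
  refine h.trans ?_
  have hw := S.w_pos
  rw [Finset.mul_sum, ENNReal.ofReal_sum_of_nonneg fun t _ => by positivity, Finset.mul_sum]
  refine Finset.sum_le_sum fun t _ =>
    (exc3_vol S hB hη0 hη1 hlam0 hlam hK0 hK m t).trans (le_of_eq ?_)
  rw [S.vr_R t]
  congr 2; ring

theorem exists_good3 {B η lam : ℝ} {m c : ℕ} {z : ℝ × ℝ}
    (hz : z ∉ {z | ∃ g : Finset ι, c ≤ g.card ∧ ∀ t ∈ g, z ∈ Exc3 S B η lam m t})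
    {g : Finset ι} (hg : c ≤ g.card) : ∃ t ∈ g, z ∉ Exc3 S B η lam m t := by
  by_contra h
  push Not at h
  exact hz ⟨g, hg, h⟩

/-! ## 4. the arc hypothesis -/

/-- **(u5), wide form** : tops `a ∈ P` with slopes `σ a` and nonexceptional representatives. -/
theorem arc_of_rep3 {α : Type} (P : Finset α) (σ : α → ℝ) (t : α → ι) {B η lam e H1 : ℝ} {m : ℕ}
    {z : ℝ × ℝ} (hη0 : 0 < η) (he : 0 ≤ e) (hH1 : 1 ≤ H1)
    (heH : (4 * e + 8 * η) * H1 ≤ 1)
    (hz : ∀ a ∈ P, z ∈ Wd S B (t a))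
    (hgood : ∀ a ∈ P, z ∉ Exc3 S B η lam m (t a))
    (hlen : ∀ a ∈ P, 128 * S.l (t a) ≤ η * lam)
    (hclose : ∀ a ∈ P, ∀ b ∈ P, a ≠ b → |σ a - S.s (t a)| ≤ e * |σ a - σ b|)
    (hsep : ∀ a ∈ P, ∀ b ∈ P, a ≠ b →
      16 * ((S.A + 3 * B / 2) * S.w / S.l (t a)) ≤ η * |σ a - σ b|) :
    H646.Arc (2 * m) H1 σ P := by
  classical
  have heH0 : 4 * e + 8 * η ≤ 1 := by
    have : 0 < 4 * e + 8 * η := by positivity
    nlinarith
  intro P' hP' hcard
  have hne : P'.Nonempty := by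
    rw [← Finset.card_pos]; omega
  obtain ⟨k, hk, hmin⟩ := Finset.exists_min_image P' (fun a => S.k (t a)) hne
  refine ⟨k, hk, ?_⟩
  have hkP := hP' hk
  have hcov : Cov S.s η (S.s (t k)) (2 * m) (Cr3 S B η lam (t k) z) := by
    by_contra h
    exact hgood k hkP ⟨hz k hkP, h⟩
  obtain ⟨C, hC, hcov⟩ := hcov
  -- enumeration of `C`
  have hm : 0 < 2 * m := by omega
  obtain ⟨c, hc⟩ : ∃ c : Fin (2 * m) → ℝ, ∀ x ∈ C, ∃ r, c r = x := by
    let f := C.equivFin
    refine ⟨fun r => if h : (r : ℕ) < C.card then (f.symm ⟨r, h⟩ : ℝ) else 0, fun x hx => ?_⟩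
    refine ⟨⟨f ⟨x, hx⟩, (f ⟨x, hx⟩).2.trans hC⟩, ?_⟩
    simp [f]
  refine ⟨c, fun a ha hak => ?_⟩
  have haP := hP' ha
  have hD := abs_nonneg (σ a - σ k)
  have ha1 := hclose a haP k hkP hak
  have hk1 := hclose k hkP a haP hak.symm
  rw [abs_sub_comm (σ k) (σ a)] at hk1
  have hsepa : Sepa3 S B η lam (t k) (t a) := by
    refine ⟨hmin a ha, hlen a haP, ?_⟩
    have h1 := hsep a haP k hkP hak
    have h2 : |σ a - σ k| ≤ |σ a - S.s (t a)| + |S.s (t a) - S.s (t k)| + |σ k - S.s (t k)| := by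
      have h4 : σ a - σ k = (σ a - S.s (t a)) + (S.s (t a) - S.s (t k)) + -(σ k - S.s (t k)) := by
        ring
      calc |σ a - σ k| = |(σ a - S.s (t a)) + (S.s (t a) - S.s (t k)) + -(σ k - S.s (t k))| := by
            rw [← h4]
        _ ≤ |(σ a - S.s (t a)) + (S.s (t a) - S.s (t k))| + |-(σ k - S.s (t k))| := abs_add_le _ _
        _ ≤ |σ a - S.s (t a)| + |S.s (t a) - S.s (t k)| + |σ k - S.s (t k)| := by
            rw [abs_neg]
            gcongr
            exact abs_add_le _ _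
    have h3 : |σ a - σ k| ≤ 2 * |S.s (t a) - S.s (t k)| := by nlinarith
    nlinarith
  have hCr : t a ∈ Cr3 S B η lam (t k) z := by
    unfold Cr3
    rw [Finset.mem_filter]
    exact ⟨Finset.mem_univ _, hsepa, hz a haP⟩
  obtain ⟨c', hc', hcc⟩ := hcov (t a) hCr
  obtain ⟨r, hr⟩ := hc c' hc'
  refine ⟨r, ?_⟩
  rw [hr, le_div_iff₀ (by linarith)]
  have hX := abs_nonneg (σ a - c')
  have hY := abs_nonneg (c' - σ k)
  have h1 : |σ a - c'| ≤ |σ a - S.s (t a)| + |S.s (t a) - c'| := abs_sub_le _ _ _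
  have h2 : |c' - S.s (t k)| ≤ |c' - σ k| + |σ k - S.s (t k)| := abs_sub_le _ _ _
  have h3 : |σ a - σ k| ≤ |σ a - c'| + |c' - σ k| := abs_sub_le _ _ _
  have h4 : |σ a - c'| ≤ e * |σ a - σ k| + 4 * η * (|c' - σ k| + e * |σ a - σ k|) := by
    have : 4 * η * |c' - S.s (t k)| ≤ 4 * η * (|c' - σ k| + e * |σ a - σ k|) := by
      gcongr
      exact h2.trans (by gcongr)
    linarith
  have h5 : |σ a - c'| ≤ 2 * (2 * e + 4 * η) * |c' - σ k| := by
    have h6 : 4 * η * (e * |σ a - σ k|) ≤ e * |σ a - σ k| := by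
      have : 4 * η ≤ 1 := by linarith
      have h7 : 0 ≤ e * |σ a - σ k| := by positivity
      nlinarith
    have h7 : e * |σ a - σ k| ≤ e * (|σ a - c'| + |c' - σ k|) := by gcongr
    nlinarith
  calc |σ a - c'| * H1 ≤ 2 * (2 * e + 4 * η) * |c' - σ k| * H1 := by gcongr
    _ = ((4 * e + 8 * η) * H1) * |c' - σ k| := by ring
    _ ≤ 1 * |c' - σ k| := by gcongr
    _ = |c' - σ k| := one_mul _

end Vale.Agent.P112.H597
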