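import Vale.Agent.P112.H646.GainDefs
import Vale.Agent.P112.H22.Cand
import Vale.Agent.P112.H597.Exc3
import Vale.Agent.P112.H724.FD2

/-!
# P112 / H597: the candidates above the boxes of `[GAIN]`

`cd u M R E s H0 i z` : the dense tops above the pairs of the tree `i` which are seen from `z`
(`c0 = 1/4`, `Y = 6 H0`). `cd_card`: on the boxes of the occupancy level `a` there are at least
`c 2 ^ (-a) H0` candidates. `pp`: the pairs of two trees seen from one point are `Q`-separated.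
-/

open MeasureTheory Set
open scoped ENNReal

noncomputable section

namespace Vale.Agent.P112.H597.Gn

open Vale.Agent.P112.T Vale.Agent.P112.F30 Vale.Agent.P112.H8 Vale.Agent.P112.H646.Gain
open Vale.Agent.P112.H22.TopSys Vale.Agent.P112.H22.Cand

variable {ι : Type}

open Classical in
/-- the candidates of the tree `i` seen from `z` -/
def cd (u : ℝ × ℝ → ℝ) {κ : Type} [Fintype κ] (M : Tops κ) (R : ℝ) (E : ι → ℕ → Set (ℝ × ℝ))
    (s : ι → ℝ) (H0 : ℝ) (i : ι) (z : ℝ × ℝ) : Finset κ :=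
  Finset.univ.filter fun m => Rel u M R (E i) (s i) (1 / 4) (6 * H0) z m

theorem mem_cd {u : ℝ × ℝ → ℝ} {κ : Type} [Fintype κ] {M : Tops κ} {R : ℝ}
    {E : ι → ℕ → Set (ℝ × ℝ)} {s : ι → ℝ} {H0 : ℝ} {i : ι} {z : ℝ × ℝ} {m : κ} :
    m ∈ cd u M R E s H0 i z ↔ Rel u M R (E i) (s i) (1 / 4) (6 * H0) z m := by
  simp [cd]

/-- pairs of two trees seen from one point are `Q`-separated -/
theorem pp {u : ℝ × ℝ → ℝ} {S Q H0 : ℝ} {n : ℕ} {s : ι → ℝ} {E : ι → ℕ → Set (ℝ × ℝ)}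
    (h : SepTrees u S Q n s E) (hH : 0 < H0) (hQ : 16 * H0 ≤ Q) {i i' : ι} (hii : i ≠ i')
    (z : ℝ × ℝ) : PP (E i) (E i') (s i) (s i') (1 / 4) (6 * H0) Q z := by
  have key : ∀ (a a' : ι), a ≠ a' → ∀ (j j' : ℕ) (z1 z2 : ℝ × ℝ), j' ≤ j →
      Sn (E a) (s a) (1 / 4) (6 * H0) j z1 z → Sn (E a') (s a') (1 / 4) (6 * H0) j' z2 z →
      Q * 2 ^ j ≤ |s a - s a'| := by
    intro a a' haa j j' z1 z2 hj h1 h2
    by_contra hlt
    push Not at hlt
    have h2j : (0 : ℝ) < 2 ^ j := by positivity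
    have h2j' : (0 : ℝ) < 2 ^ j' := by positivity
    have hpow : (2 : ℝ) ^ j' ≤ 2 ^ j := pow_le_pow_right₀ (by norm_num) hj
    have hx1 : |z1.1 - z.1| ≤ (1 / 4) / 2 ^ j' := by
      refine h1.2.1.trans ?_
      gcongr
    have hx : |z1.1 - z2.1| ≤ 4 / 2 ^ j' := by
      have e : z1.1 - z2.1 = (z1.1 - z.1) - (z2.1 - z.1) := by ring
      rw [e]
      refine (abs_sub _ _).trans ?_
      calc |z1.1 - z.1| + |z2.1 - z.1| ≤ (1 / 4) / 2 ^ j' + (1 / 4) / 2 ^ j' :=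
            add_le_add hx1 h2.2.1
        _ ≤ 4 / 2 ^ j' := by
            rw [← add_div]; gcongr; norm_num
    have hoff : |(z1.2 - s a' * z1.1) - (z2.2 - s a' * z2.1)| ≤ Q := by
      have e : (z1.2 - s a' * z1.1) - (z2.2 - s a' * z2.1) =
          ((z1.2 - s a * z1.1) - (z.2 - s a * z.1)) - ((z2.2 - s a' * z2.1) - (z.2 - s a' * z.1)) +
          (s a - s a') * (z1.1 - z.1) := by ring
      rw [e]
      have h3 : |(s a - s a') * (z1.1 - z.1)| ≤ Q * (1 / 4) := by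
        rw [abs_mul]
        have hQ0 : 0 ≤ Q := by linarith
        calc |s a - s a'| * |z1.1 - z.1| ≤ (Q * 2 ^ j) * ((1 / 4) / 2 ^ j) := by
              gcongr
              exact h1.2.1
          _ = Q * (1 / 4) := by field_simp
      have h4 := h1.2.2
      have h5 := h2.2.2
      have h6 := abs_sub ((z1.2 - s a * z1.1) - (z.2 - s a * z.1))
        ((z2.2 - s a' * z2.1) - (z.2 - s a' * z.1))
      have h7 := abs_add_le (((z1.2 - s a * z1.1) - (z.2 - s a * z.1)) -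
        ((z2.2 - s a' * z2.1) - (z.2 - s a' * z.1))) ((s a - s a') * (z1.1 - z.1))
      linarith
    exact absurd (h.sep a a' haa j j' hj z1 h1.1 z2 h2.1 hx hoff) (not_le.2 hlt)
  intro j z1 j' z2 h1 h2
  rcases le_total j' j with hj | hj
  · rw [max_eq_left hj]
    exact key i i' hii j j' z1 z2 hj h1 h2
  · rw [max_eq_right hj, abs_sub_comm]
    exact key i' i hii.symm j' j z2 z1 hj h2 h1

/-- a box over `z` -/
theorem exists_box [Fintype ι] {K : Type} {X : Bxs ι K} {z : ℝ × ℝ} {i : ι} (hi : i ∈ act X z) :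
    ∃ k, X.tb k = i ∧ z.1 ∈ Ico (X.x0 k) (X.x0 k + X.lam k) ∧
      z.2 - X.s i * z.1 ∈ Ico (X.y0 k) (X.y0 k + X.h k) := by
  simp only [act, Finset.mem_filter, Finset.mem_univ, true_and] at hi
  obtain ⟨k, hk, hm⟩ := hi
  exact ⟨k, hk, hm.1, hm.2⟩

/-- **many candidates** -/
theorem cd_card [Fintype ι] {u : ℝ × ℝ → ℝ} {S Q H0 θ R : ℝ} {n r : ℕ} {s : ι → ℝ}
    {E : ι → ℕ → Set (ℝ × ℝ)} {G : ι → ℝ × ℝ → ℂ} {N0 : ℕ} {K : Fin N0 → Type}
    {X : ∀ a, Bxs ι (K a)} {κ : Type} [Fintype κ] {M : Tops κ} (hT : SepTrees u S Q n s E)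
    (hX : Boxes s E S Q H0 θ r G N0 K X) (hS : 1 ≤ S) (hSH : S ≤ H0) (hθ : θ ≤ 1)
    (hr : 3 ≤ r) (hR : 0 ≤ R) (hTop : ∀ i j, ∀ z' ∈ E i j, ∃ m, Ab u M R z' j m)
    (a : Fin N0) (z : ℝ × ℝ) {i : ι} (hi : i ∈ act (X a) z) :
    H0 * (1 / 2) ^ (a : ℕ) ≤
      2 * (3 + S + (R + (R + S) * (1 / 4))) * (cd u M R E s H0 i z).card := by
  classical
  obtain ⟨k, rfl, hx, hy⟩ := exists_box hi
  rw [hX.s_eq] at hy
  rw [hX.height] at hy
  set ρ := 3 + S + (R + (R + S) * (1 / 4)) with hρ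
  have hρ0 : 0 ≤ ρ := by positivity
  have hH0 : 1 ≤ H0 := hS.trans hSH
  have hlow := hX.low a k
  set i := (X a).tb k with hi0
  set Z := cd u M R E s H0 i z with hZ
  have hsub : Ioo ((X a).y0 k) ((X a).y0 k + (1 + θ) * H0) ∩ Ao s E r (3 + S) (X a) k ⊆
      ⋃ m ∈ Z, Icc (M.line m z.1 - s i * z.1 - ρ) (M.line m z.1 - s i * z.1 + ρ) := by
    rintro t ⟨ht, j, hj, z', hz', ⟨x, hxI, hxz⟩, hB⟩
    have hoff : |(z'.2 - s i * z'.1) - (z.2 - s i * z.1)| ≤ 6 * H0 := by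
      have hθH : θ * H0 ≤ H0 := by nlinarith
      have h1 : |t - (z.2 - s i * z.1)| ≤ 2 * H0 := by
        rw [abs_le]
        constructor <;> nlinarith [ht.1, ht.2, hy.1, hy.2]
      have h2 := abs_sub_le (z'.2 - s i * z'.1) t (z.2 - s i * z.1)
      linarith
    have h2r : (8 : ℝ) ≤ 2 ^ r := by
      calc (8 : ℝ) = 2 ^ 3 := by norm_num
        _ ≤ 2 ^ r := pow_le_pow_right₀ (by norm_num) hr
    have hlam := (X a).lam_pos k
    have hlj : (X a).lam k ≤ (1 / 8) * (1 / 2 ^ j) := by nlinarith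
    have hzx : |z'.1 - z.1| ≤ (1 / 4) / 2 ^ j := by
      have h1 := abs_sub_le z'.1 x z.1
      have h2 : |x - z.1| ≤ (X a).lam k := by
        rw [abs_le]
        constructor <;> linarith [hxI.1, hxI.2, hx.1, hx.2]
      have h3 : (1 : ℝ) / (8 * 2 ^ j) = (1 / 8) * (1 / 2 ^ j) := by
        field_simp
      have h4 : (1 / 4 : ℝ) / 2 ^ j = (1 / 8) * (1 / 2 ^ j) + (1 / 8) * (1 / 2 ^ j) := by
        ring
      rw [h4]
      rw [h3] at hxz
      linarith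
    obtain ⟨m, hm⟩ := hTop i j z' hz'
    have hrel : Rel u M R (E i) (s i) (1 / 4) (6 * H0) z m :=
      ⟨j, z', ⟨hz', hzx, hoff⟩, hm⟩
    refine mem_biUnion (mem_cd.2 hrel) ?_
    have h4 := off_le hzx (hT.slope i j z' hz') hm
    have h5 : |t - (M.line m z.1 - s i * z.1)| ≤ ρ := by
      have h6 := abs_sub_le t (z'.2 - s i * z'.1) (M.line m z.1 - s i * z.1)
      have h7 : |t - (z'.2 - s i * z'.1)| ≤ 3 + S := by
        rw [abs_sub_comm]; exact hB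
      linarith
    rw [abs_le] at h5
    constructor <;> linarith [h5.1, h5.2]
  have h1 := hlow.trans ((measure_mono hsub).trans (measure_biUnion_finset_le _ _))
  have h2 : ∀ m ∈ Z, volume (Icc (M.line m z.1 - s i * z.1 - ρ) (M.line m z.1 - s i * z.1 + ρ)) =
      ENNReal.ofReal (2 * ρ) := by
    intro m _
    rw [Real.volume_Icc]
    congr 1
    ring
  rw [Finset.sum_congr rfl h2, Finset.sum_const, nsmul_eq_mul, ← ENNReal.ofReal_natCast,
    ← ENNReal.ofReal_mul (by positivity), ENNReal.ofReal_le_ofReal_iff (by positivity)] at h1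
  linarith

/-- **the tops** (`StFD2`) -/
theorem tops : ∃ C : ℝ, 1 ≤ C ∧ ∀ (u : ℝ × ℝ → ℝ), Field u →
    ∀ E0 : Set (ℝ × ℝ), MeasurableSet E0 → (∃ r : ℝ, ∀ z ∈ E0, |z.1| ≤ r ∧ |z.2| ≤ r) →
    ∀ n ν : ℕ, ∃ (κ : Type) (_ : Fintype κ) (M : Tops κ),
      ENNReal.ofReal (∑ m, (1 / 2) ^ M.j m) ≤ ENNReal.ofReal (2 ^ (ν + 1)) * volume E0 ∧
      HasTile u E0 ν M ∧
      ∀ (ι : Type) (E : ι → ℕ → Set (ℝ × ℝ)), (∀ i j, E i j ⊆ Pd u E0 4 n ν j) →
        ∀ i j, ∀ z' ∈ E i j, ∃ m, Ab u M (C * 2 ^ ν) z' j m := by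
  obtain ⟨C, hC, h⟩ := H724.stFD2 4
  refine ⟨4 * C, by linarith, fun u hu E0 hE hb n ν => ?_⟩
  have h1 : (1 : ℝ) ≤ 2 ^ (ν + 1) := one_le_pow₀ (by norm_num)
  obtain ⟨κ, _, M, m1, _, m3, _, m5⟩ := h u hu E0 hE hb n ν (2 ^ (ν + 1)) 1 le_rfl h1
    (by
      calc (2 : ℝ) ^ (ν + 1) = (2 ^ (ν + 1)) ^ 1 := (pow_one _).symm
        _ ≤ (2 ^ (ν + 1)) ^ 4 := pow_le_pow_right₀ h1 (by norm_num))
  refine ⟨κ, inferInstance, M, m1, m3, fun ι E hE' i j z' hz' => ?_⟩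
  obtain ⟨m, a1, a2, a3, a4⟩ := m5 j z' (hE' i j hz')
  have e : (2 : ℝ) ^ (ν + 1) = 2 * 2 ^ ν := by rw [pow_succ]; ring
  have h2 : (1 : ℝ) ≤ 2 ^ ν := one_le_pow₀ (by norm_num)
  refine ⟨m, a1, a2, a3.trans ?_, a4.trans ?_⟩
  · rw [e]
    have : C * (2 * 2 ^ ν) ≤ 4 * C * 2 ^ ν := by nlinarith
    exact mul_le_mul_of_nonneg_right this (by positivity)
  · rw [e]
    nlinarith

end Vale.Agent.P112.H597.Gn
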