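import Vale.Agent.P112.H597.Star

/-!
# P112 / H597: the sparse Kakeya theorem for wide intervals

`sparse3` : one measurable function `Φ` with `∫ Φ² ≤ C (B + 2 + 32 A)³ / δ² * ∑ |R| / (q + 1)`
which dominates, at every `z`, the number of separated groups of at least `2 q + 1` dense tubes
`t` with `z.1` in the interval `J3` of length `3 l_t` around the interval of `t` and
`|z.2 - line t z.1| ≤ B w`.
-/

open MeasureTheory Set Vale.Agent.P112.H310 Vale.Agent.P112.H295
open scoped ENNReal BigOperators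

namespace Vale.Agent.P112.H597

theorem scaled_sq (τ : ℝ) {Φ : ℝ × ℝ → ℝ} (hm : Measurable Φ)
    (hi : Integrable (fun z => Φ z ^ 2)) :
    Integrable (fun z : ℝ × ℝ => Φ (z.1 / 16 - τ, z.2) ^ 2) ∧
      ∫ z : ℝ × ℝ, Φ (z.1 / 16 - τ, z.2) ^ 2 = 16 * ∫ z, Φ z ^ 2 := by
  have hm' : Measurable fun z : ℝ × ℝ => Φ (z.1 / 16 - τ, z.2) ^ 2 :=
    (hm.comp (by fun_prop)).pow_const 2
  have h1 := lintegral_sc τ (f := fun z => ENNReal.ofReal (Φ (z.1 / 16 - τ, z.2) ^ 2))
    hm'.ennreal_ofReal
  have h2 : ∀ p : ℝ × ℝ, Φ ((sc τ p).1 / 16 - τ, (sc τ p).2) = Φ p := by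
    intro p
    have : ((sc τ p).1 / 16 - τ, (sc τ p).2) = p := by
      refine Prod.ext ?_ rfl
      simp only [sc]; ring
    rw [this]
  simp only [h2] at h1
  have h3 : ∫⁻ z : ℝ × ℝ, ENNReal.ofReal (Φ (z.1 / 16 - τ, z.2) ^ 2) =
      ENNReal.ofReal 16 * ∫⁻ z, ENNReal.ofReal (Φ z ^ 2) := by
    rw [h1, ← mul_assoc, ← ENNReal.ofReal_mul (by norm_num)]
    norm_num
  have hfin : ∫⁻ z, ENNReal.ofReal (Φ z ^ 2) ≠ ∞ := by
    rw [← ofReal_integral_eq_lintegral_ofReal hi
      (Filter.Eventually.of_forall fun z => sq_nonneg _)]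
    exact ENNReal.ofReal_ne_top
  have hi' : Integrable (fun z : ℝ × ℝ => Φ (z.1 / 16 - τ, z.2) ^ 2) := by
    refine ⟨hm'.aestronglyMeasurable, ?_⟩
    rw [hasFiniteIntegral_iff_ofReal (Filter.Eventually.of_forall fun z => sq_nonneg _), h3]
    exact ENNReal.mul_lt_top ENNReal.ofReal_lt_top (lt_top_iff_ne_top.2 hfin)
  refine ⟨hi', ?_⟩
  rw [integral_eq_lintegral_of_nonneg_ae (Filter.Eventually.of_forall fun z => sq_nonneg _)
      hm'.aestronglyMeasurable,
    integral_eq_lintegral_of_nonneg_ae (Filter.Eventually.of_forall fun z => sq_nonneg _)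
      (hm.pow_const 2).aestronglyMeasurable]
  have : ∫⁻ z : ℝ × ℝ, ENNReal.ofReal (Φ (z.1 / 16 - τ, z.2) ^ 2) =
      ENNReal.ofReal 16 * ∫⁻ z, ENNReal.ofReal (Φ z ^ 2) := h3
  rw [this, ENNReal.toReal_mul, ENNReal.toReal_ofReal (by norm_num)]

open Classical in
theorem sparse3 {ι : Type*} [Fintype ι] (S : SysV ι) (hε : S.ε ≤ 1 / 256) {B : ℝ} (hB : 0 ≤ B)
    (q : ℕ) :
    ∃ Φ : ℝ × ℝ → ℝ, Measurable Φ ∧ (∀ z, 0 ≤ Φ z) ∧ Integrable (fun z => Φ z ^ 2) ∧
      ∫ z, Φ z ^ 2 ≤ 262272 * 8192 * (B + 2 + 32 * S.A) ^ 3 / S.δ ^ 2 *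
        ((∑ i, volume.real (S.R i)) / (q + 1)) ∧
      ∀ (z : ℝ × ℝ) {κ : Type} [Fintype κ] (g : κ → Finset ι),
        (∀ a, 2 * q + 1 ≤ (g a).card) →
        (∀ a, ∀ t ∈ g a, z.1 ∈ J3 (S.k t) (S.m t) ∧ |z.2 - S.line t z.1| ≤ B * S.w) →
        (∀ a a', a ≠ a' → ∀ t ∈ g a, ∀ t' ∈ g a', ∀ j, S.Above j t → ¬ S.Above j t') →
        (Fintype.card κ : ℝ) ≤ Φ z := by
  have hδ := S.δ_pos
  choose F hFm hF0 hFi hFI hFc using fun b : Bool => sparse_fun (star S hε b) hB q
  have hG := fun b : Bool => scaled_sq (sh b) (hFm b) (hFi b)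
  set G : Bool → ℝ × ℝ → ℝ := fun b z => F b (z.1 / 16 - sh b, z.2) with hGdef
  have hGm : ∀ b, Measurable (G b) := fun b => (hFm b).comp (by fun_prop)
  have hG0 : ∀ b z, 0 ≤ G b z := fun b z => hF0 b _
  have hGi : ∀ b, Integrable (fun z => G b z ^ 2) := fun b => (hG b).1
  have hGI : ∀ b, ∫ z, G b z ^ 2 = 16 * ∫ z, F b z ^ 2 := fun b => (hG b).2
  set Φ : ℝ × ℝ → ℝ := fun z => G false z + G true z with hΦ
  have hΦm : Measurable Φ := (hGm false).add (hGm true)
  have hsq : ∀ z, Φ z ^ 2 ≤ 2 * G false z ^ 2 + 2 * G true z ^ 2 := by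
    intro z
    show (G false z + G true z) ^ 2 ≤ _
    nlinarith [sq_nonneg (G false z - G true z)]
  have hint : Integrable (fun z => 2 * G false z ^ 2 + 2 * G true z ^ 2) :=
    ((hGi false).const_mul 2).add ((hGi true).const_mul 2)
  have hΦi : Integrable (fun z => Φ z ^ 2) := by
    refine hint.mono' (hΦm.pow_const 2).aestronglyMeasurable
      (Filter.Eventually.of_forall fun z => ?_)
    rw [Real.norm_eq_abs, abs_of_nonneg (sq_nonneg _)]
    exact hsq z
  refine ⟨Φ, hΦm, fun z => add_nonneg (hG0 false z) (hG0 true z), hΦi, ?_, ?_⟩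
  · refine (integral_mono hΦi hint hsq).trans ?_
    rw [integral_add ((hGi false).const_mul 2) ((hGi true).const_mul 2), integral_const_mul,
      integral_const_mul, hGI, hGI]
    have hb : ∀ b, ∫ z, F b z ^ 2 ≤ 262272 * (B + 2 + 32 * S.A) ^ 3 / (S.δ / 16) ^ 2 *
        ((∑ i ∈ Finset.univ.filter (fun i => gr (S.k i) (S.m i) = b), volume.real (S.R i)) /
          (q + 1)) := by
      intro b
      refine (hFI b).trans (le_of_eq ?_)
      rw [star_L S hε b B]
      have e : ∑ i, volume.real ((star S hε b).R i) =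
          ∑ i ∈ Finset.univ.filter (fun i => gr (S.k i) (S.m i) = b), volume.real (S.R i) := by
        rw [Finset.sum_subtype (Finset.univ.filter (fun i => gr (S.k i) (S.m i) = b))
          (p := fun i => gr (S.k i) (S.m i) = b) (by simp) (fun i => volume.real (S.R i))]
        exact Finset.sum_congr rfl fun i _ => star_R S hε b i
      rw [e]
      rfl
    have hsum : ∑ i ∈ Finset.univ.filter (fun i => gr (S.k i) (S.m i) = false),
          volume.real (S.R i) +
        ∑ i ∈ Finset.univ.filter (fun i => gr (S.k i) (S.m i) = true), volume.real (S.R i) =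
        ∑ i, volume.real (S.R i) := by
      have h := Finset.sum_filter_add_sum_filter_not Finset.univ
        (fun i => gr (S.k i) (S.m i) = false) (fun i => volume.real (S.R i))
      simpa using h
    have h0 := hb false
    have h1 := hb true
    set c : ℝ := 262272 * (B + 2 + 32 * S.A) ^ 3 / (S.δ / 16) ^ 2 with hc
    set X0 := ∑ i ∈ Finset.univ.filter (fun i => gr (S.k i) (S.m i) = false), volume.real (S.R i)
    set X1 := ∑ i ∈ Finset.univ.filter (fun i => gr (S.k i) (S.m i) = true), volume.real (S.R i)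
    rw [← hsum]
    have e2 : 262272 * 8192 * (B + 2 + 32 * S.A) ^ 3 / S.δ ^ 2 * ((X0 + X1) / (q + 1)) =
        2 * (16 * (c * (X0 / (q + 1)))) + 2 * (16 * (c * (X1 / (q + 1)))) := by
      rw [hc]
      field_simp
      ring
    rw [e2]
    linarith
  · intro z κ _ g hg1 hg2 hg3
    -- the groups of the grid `b`
    set gb : Bool → κ → Finset ι := fun b a => (g a).filter (fun t => gr (S.k t) (S.m t) = b)
      with hgb
    have hbig : ∀ a, q + 1 ≤ (gb false a).card ∨ q + 1 ≤ (gb true a).card := by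
      intro a
      have h := Finset.card_filter_add_card_filter_not
        (s := g a) (fun t => gr (S.k t) (S.m t) = false)
      have h' : ((g a).filter (fun t => ¬ gr (S.k t) (S.m t) = false)) = gb true a := by
        ext t; simp [hgb]
      rw [h'] at h
      have h2 := hg1 a
      have h3 : (gb false a).card + (gb true a).card = (g a).card := h
      omega
    have key : ∀ b, (((Finset.univ.filter fun a => q + 1 ≤ (gb b a).card).card : ℕ) : ℝ) ≤
        G b z := by
      intro b
      have h := hFc b (z.1 / 16 - sh b, z.2)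
        (κ := {a : κ // a ∈ Finset.univ.filter fun a => q + 1 ≤ (gb b a).card})
        (fun a => (gb b a).subtype (fun t => gr (S.k t) (S.m t) = b)) ?_ ?_ ?_
      · rw [Fintype.card_coe] at h
        exact h
      · intro a
        have ha := (Finset.mem_filter.1 a.2).2
        rw [Finset.card_subtype]
        have : (gb b a).filter (fun t => gr (S.k t) (S.m t) = b) = gb b a := by
          apply Finset.filter_true_of_mem
          intro t ht
          exact (Finset.mem_filter.1 ht).2
        rw [this]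
        exact ha
      · intro a t ht
        have ht' : (t : ι) ∈ gb b a := Finset.mem_subtype.1 ht
        have h2 := hg2 a t (Finset.mem_filter.1 ht').1
        exact star_mem S hε b t h2.1 h2.2
      · intro a a' haa t ht t' ht' j hj hj'
        have h1 : (t : ι) ∈ g a := (Finset.mem_filter.1 (Finset.mem_subtype.1 ht)).1
        have h2 : (t' : ι) ∈ g a' := (Finset.mem_filter.1 (Finset.mem_subtype.1 ht')).1
        exact hg3 a a' (fun h => haa (Subtype.ext h)) t h1 t' h2 j
          (star_above S hε b hj) (star_above S hε b hj')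
    have hcard : Fintype.card κ ≤ (Finset.univ.filter fun a => q + 1 ≤ (gb false a).card).card +
        (Finset.univ.filter fun a => q + 1 ≤ (gb true a).card).card := by
      have hsub : (Finset.univ : Finset κ) ⊆
          (Finset.univ.filter fun a => q + 1 ≤ (gb false a).card) ∪
            (Finset.univ.filter fun a => q + 1 ≤ (gb true a).card) := by
        intro a _
        rw [Finset.mem_union, Finset.mem_filter, Finset.mem_filter]
        rcases hbig a with h | h
        · exact Or.inl ⟨Finset.mem_univ _, h⟩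
        · exact Or.inr ⟨Finset.mem_univ _, h⟩
      have h1 := (Finset.card_le_card hsub).trans (Finset.card_union_le _ _)
      rwa [Finset.card_univ] at h1
    have hcard' : (Fintype.card κ : ℝ) ≤
        ((Finset.univ.filter fun a => q + 1 ≤ (gb false a).card).card : ℝ) +
          ((Finset.univ.filter fun a => q + 1 ≤ (gb true a).card).card : ℝ) := by
      exact_mod_cast hcard
    exact hcard'.trans (add_le_add (key false) (key true))

end Vale.Agent.P112.H597
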