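import Vale.Agent.P112.H597.Cands
import Vale.Agent.P112.H597.Sparse3

/-!
# P112 / H597: `[SQ]` = `H646.Gain.StSq`
-/

open MeasureTheory Set
open scoped ENNReal

noncomputable section

namespace Vale.Agent.P112.H597.Gn

open Vale.Agent.P112.T Vale.Agent.P112.F30 Vale.Agent.P112.H8 Vale.Agent.P112.H646.Gain
open Vale.Agent.P112.H22.TopSys Vale.Agent.P112.H22.Cand Vale.Agent.P112.H310
open Vale.Agent.P112.H295

variable {ι : Type}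

theorem lip_nonneg {u : ℝ × ℝ → ℝ} {ε : ℝ} (h : ∀ x y y', |u (x, y) - u (x, y')| ≤ ε * |y - y'|) :
    0 ≤ ε := by
  have h1 := h 0 1 0
  have h2 := abs_nonneg (u (0, 1) - u (0, 0))
  simpa using h2.trans h1

section top

variable {u : ℝ × ℝ → ℝ} {hu : Measurable u} {ε : ℝ} {hε0 : 0 ≤ ε} {hε1 : ε ≤ 1 / 16}
  {hLip : ∀ x y y', |u (x, y) - u (x, y')| ≤ ε * |y - y'|} {E : Set (ℝ × ℝ)}
  {hE : MeasurableSet E} {ν : ℕ} {κ : Type} {M : Tops κ} {hM : HasTile u E ν M} {w : ℝ}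
  {hw : 1 ≤ w}

theorem R_vol (m : κ) : volume.real ((topSys u hu hε0 hε1 hLip hE M hM hw).R m) =
    (1 / 2) ^ M.j m * (2 * w) := by
  have h : volume ((topSys u hu hε0 hε1 hLip hE M hM hw).R m) =
      ENNReal.ofReal ((2 : ℝ)⁻¹ ^ M.j m) * ENNReal.ofReal (2 * w) := by
    show volume (Reg (D (M.j m) (q 0 (M.j m) (M.x m)))
      (fun x => (M.y m - M.s m * M.x m) + M.s m * x) w) = _
    rw [volume_Reg (measurableSet_D _ _) (by fun_prop), volume_D]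
  rw [measureReal_def, h, ENNReal.toReal_mul, ENNReal.toReal_ofReal (by positivity),
    ENNReal.toReal_ofReal (by linarith)]
  simp

/-- the candidates are in the wide intervals -/
theorem rel_J3 {R H0 s : ℝ} {E' : ℕ → Set (ℝ × ℝ)} {z : ℝ × ℝ} {m : κ}
    (h : Rel u M R E' s (1 / 4) (6 * H0) z m) :
    z.1 ∈ J3 (M.j m) (q 0 (M.j m) (M.x m)) := by
  obtain ⟨x, hx, h1⟩ := rel_x (by norm_num) h
  refine mem_J3 ((q_eq_D _ _ _).1 hx) ?_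
  rw [abs_sub_comm]
  have : (0 : ℝ) ≤ (2 : ℝ)⁻¹ ^ M.j m := by positivity
  linarith

/-- the candidates are in the wide tubes -/
theorem rel_wide {R S H0 s : ℝ} {E' : ℕ → Set (ℝ × ℝ)} {z : ℝ × ℝ} {m : κ} (hR : 0 ≤ R)
    (hH : 1 ≤ H0) (hSH : S ≤ H0) (hA : ∀ j, ∀ z' ∈ E' j, |u z' - s| ≤ S * 2 ^ j)
    (h : Rel u M R E' s (1 / 4) (6 * H0) z m) :
    |z.2 - M.line m z.1| ≤ (7 + 2 * R) * H0 := by
  have h1 := rel_off hA h
  nlinarith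

end top

theorem vol_fin {E0 : Set (ℝ × ℝ)} (hb : ∃ r : ℝ, ∀ z ∈ E0, |z.1| ≤ r ∧ |z.2| ≤ r) :
    volume E0 ≠ ∞ := by
  obtain ⟨r, hr⟩ := hb
  refine ne_top_of_le_ne_top ?_ (measure_mono (show E0 ⊆ Icc (-r) r ×ˢ Icc (-r) r from
    fun z hz => ⟨abs_le.1 (hr z hz).1, abs_le.1 (hr z hz).2⟩))
  rw [Measure.volume_eq_prod, Measure.prod_prod]
  exact ENNReal.mul_ne_top (by simp) (by simp)

/-- the number of candidates, as a natural number `2 q + 1` -/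
theorem exists_q {N1 : ℝ} (h0 : 0 < N1) : ∃ q : ℕ, N1 / 2 ≤ (q : ℝ) + 1 ∧
    ∀ c : ℕ, N1 ≤ c → 2 * q + 1 ≤ c := by
  refine ⟨(⌈N1⌉₊ - 1) / 2, ?_, ?_⟩
  · have h1 : 1 ≤ ⌈N1⌉₊ := Nat.one_le_ceil_iff.2 h0
    have h2 : ⌈N1⌉₊ ≤ 2 * ((⌈N1⌉₊ - 1) / 2 + 1) := by omega
    have h3 : ((⌈N1⌉₊ : ℕ) : ℝ) ≤ ((2 * ((⌈N1⌉₊ - 1) / 2 + 1) : ℕ) : ℝ) := by exact_mod_cast h2
    have h4 := Nat.le_ceil N1
    push_cast at h3 ⊢
    linarith
  · intro c hc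
    have h1 : 1 ≤ ⌈N1⌉₊ := Nat.one_le_ceil_iff.2 h0
    have h2 : ⌈N1⌉₊ ≤ c := Nat.ceil_le.2 hc
    omega

theorem num1 {C0 T R ρ H0 V p X q1 I d : ℝ} (hC0 : 1 ≤ C0) (hT : 1 ≤ T) (hR0 : 0 ≤ R)
    (hRT : R ≤ C0 * T) (hρ0 : 0 < ρ) (hρT : ρ ≤ 7 * C0 * T) (hV : 0 ≤ V)
    (hp : 0 < p) (hq : H0 * p / (2 * ρ) / 2 ≤ q1) (hq0 : 0 < q1) (hX0 : 0 ≤ X)
    (hX : X ≤ 4 * T * H0 * V) (hd : 1 / d ^ 2 ≤ 4 * T ^ 2)
    (hI : I ≤ 262272 * 8192 * (7 + 2 * R + 2 + 32 * 5) ^ 3 / d ^ 2 * (X / q1)) :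
    p * I ≤ 262272 * 8192 * 171 ^ 3 * 448 * C0 ^ 4 * T ^ 7 * V := by
  have hT0 : 0 < T := by linarith
  have hC1 : 0 < C0 := by linarith
  have hdiv : X / q1 ≤ 112 * C0 * T ^ 2 * V / p := by
    rw [div_le_div_iff₀ hq0 hp]
    have h1 : H0 * p ≤ 4 * ρ * q1 := by
      rw [div_div, div_le_iff₀ (by positivity)] at hq
      linarith
    have h3 : H0 * p ≤ 4 * (7 * C0 * T) * q1 := by
      refine h1.trans ?_
      gcongr
    calc X * p ≤ (4 * T * H0 * V) * p := by gcongr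
      _ = 4 * T * V * (H0 * p) := by ring
      _ ≤ 4 * T * V * (4 * (7 * C0 * T) * q1) := by gcongr
      _ = 112 * C0 * T ^ 2 * V * q1 := by ring
  have hCT : 1 ≤ C0 * T := by nlinarith
  have h1 : 262272 * 8192 * (7 + 2 * R + 2 + 32 * 5) ^ 3 / d ^ 2 ≤
      262272 * 8192 * (171 * C0 * T) ^ 3 * (4 * T ^ 2) := by
    have h2 : (7 + 2 * R + 2 + 32 * 5) ≤ 171 * C0 * T := by nlinarith
    rw [div_eq_mul_one_div]
    have h4 : (0 : ℝ) ≤ (7 + 2 * R + 2 + 32 * 5) := by positivity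
    gcongr
  have h5 : I ≤ 262272 * 8192 * (171 * C0 * T) ^ 3 * (4 * T ^ 2) *
      (112 * C0 * T ^ 2 * V / p) := by
    refine hI.trans ?_
    have h6 : (0 : ℝ) ≤ X / q1 := by positivity
    gcongr
  calc p * I ≤ p * (262272 * 8192 * (171 * C0 * T) ^ 3 * (4 * T ^ 2) *
        (112 * C0 * T ^ 2 * V / p)) := by gcongr
    _ = 262272 * 8192 * 171 ^ 3 * 448 * C0 ^ 4 * T ^ 7 * V := by
        field_simp
        ring

/-- the geometric part: the number of active tubes is dominated by `Φ` -/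
theorem num_tubes {u : ℝ × ℝ → ℝ} {hu : Measurable u} {ε : ℝ} {hε0 : 0 ≤ ε}
    {hε1 : ε ≤ 1 / 16} {hLip : ∀ x y y', |u (x, y) - u (x, y')| ≤ ε * |y - y'|}
    {E0 : Set (ℝ × ℝ)} {hE : MeasurableSet E0} {n ν : ℕ} {κ : Type} [Fintype κ] {M : Tops κ}
    {hM : HasTile u E0 ν M} [Fintype ι] {S Q H0 θ R : ℝ} {r : ℕ} {s : ι → ℝ}
    {E : ι → ℕ → Set (ℝ × ℝ)} {G : ι → ℝ × ℝ → ℂ} {N0 : ℕ} {K : Fin N0 → Type}
    {X : ∀ a, Bxs ι (K a)} (hT : SepTrees u S Q n s E)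
    (hX : Boxes s E S Q H0 θ r G N0 K X) (hS : 1 ≤ S) (hSH : S ≤ H0) (hθ : θ ≤ 1)
    (hr : 3 ≤ r) (hR : 0 ≤ R) (hTop : ∀ i j, ∀ z' ∈ E i j, ∃ m, Ab u M R z' j m)
    (hw : 1 ≤ H0) (hQ : 4 * (5 * H0) + 2 * (R + S) < Q) (a : Fin N0) {q : ℕ}
    (hq : ∀ c : ℕ, H0 * (1 / 2) ^ (a : ℕ) / (2 * (3 + S + (R + (R + S) * (1 / 4)))) ≤ c →
      2 * q + 1 ≤ c) {Φ : ℝ × ℝ → ℝ}
    (hΦ : ∀ (z : ℝ × ℝ) {κ_1 : Type} [Fintype κ_1] (g : κ_1 → Finset κ),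
      (∀ a, 2 * q + 1 ≤ (g a).card) →
      (∀ a, ∀ t ∈ g a, z.1 ∈ J3 ((topSys u hu hε0 hε1 hLip hE M hM hw).k t)
          ((topSys u hu hε0 hε1 hLip hE M hM hw).m t) ∧
        |z.2 - (topSys u hu hε0 hε1 hLip hE M hM hw).line t z.1| ≤
          (7 + 2 * R) * (topSys u hu hε0 hε1 hLip hE M hM hw).w) →
      (∀ a a', a ≠ a' → ∀ t ∈ g a, ∀ t' ∈ g a', ∀ j,
        (topSys u hu hε0 hε1 hLip hE M hM hw).Above j t →
        ¬ (topSys u hu hε0 hε1 hLip hE M hM hw).Above j t') →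
      (Fintype.card κ_1 : ℝ) ≤ Φ z) (z : ℝ × ℝ) :
    ((act (X a) z).card : ℝ) ≤ Φ z := by
  have h := hΦ z (κ_1 := {i : ι // i ∈ act (X a) z}) (fun i => cd u M R E s H0 i.1 z) ?_ ?_ ?_
  · rwa [Fintype.card_coe] at h
  · intro i
    have h1 := cd_card hT hX hS hSH hθ hr hR hTop a z i.2
    refine hq _ ?_
    rw [div_le_iff₀ (by positivity)]
    linarith
  · intro i t ht
    have ht' := mem_cd.1 ht
    refine ⟨rel_J3 ht', ?_⟩
    have h2 := rel_wide hR hw hSH (hT.slope i.1) ht'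
    rw [line_eq] at h2
    exact h2
  · intro i i' hii t ht t' ht' j0 h1
    have hne : i.1 ≠ i'.1 := fun h => hii (Subtype.ext h)
    exact rel_sep _ rfl rfl hR (by linarith : (0 : ℝ) ≤ S) hQ (hT.slope i.1)
      (hT.slope i'.1) (pp hT (by linarith) (by linarith) hne z) (mem_cd.1 ht) (mem_cd.1 ht') j0 h1

theorem stSq : StSq := by
  obtain ⟨C0, hC0, hT⟩ := tops
  set K0 : ℝ := 262272 * 8192 * 171 ^ 3 * 448 * C0 ^ 4 with hK0
  have hC04 : C0 ≤ C0 ^ 4 := by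
    calc C0 = C0 ^ 1 := (pow_one _).symm
      _ ≤ C0 ^ 4 := pow_le_pow_right₀ hC0 (by norm_num)
  have hK1 : 1000 * C0 ≤ K0 := by
    rw [hK0]
    nlinarith
  refine ⟨K0, 7, by linarith, ?_⟩
  intro u hu n ν E0 hE0 hb ε S Q H0 θ r hLip hS hQ hH0 hSH _ hθ hr hε ι _ s E hTr hsub G N0 K _
    X hX a
  have hε0 := lip_nonneg hLip
  obtain ⟨κ, _, M, hM1, hM2, hM3⟩ := hT u hu E0 hE0 hb n ν
  have h2ν : (1 : ℝ) ≤ 2 ^ ν := one_le_pow₀ (by norm_num)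
  have hSν : (2 : ℝ) ^ ν ≤ S * 2 ^ ν := le_mul_of_one_le_left (by linarith) hS
  have hSS : S ≤ S * 2 ^ ν := le_mul_of_one_le_right (by linarith) h2ν
  generalize hTdef : S * 2 ^ ν = T at *
  have hT1 : 1 ≤ T := by linarith
  have hT7 : T ≤ T ^ 7 := by
    calc T = T ^ 1 := (pow_one _).symm
      _ ≤ T ^ 7 := pow_le_pow_right₀ hT1 (by norm_num)
  have hKT : K0 * T ≤ K0 * T ^ 7 := mul_le_mul_of_nonneg_left hT7 (by linarith)
  have hQ' : K0 * T * H0 ≤ Q := (mul_le_mul_of_nonneg_right hKT (by linarith)).trans hQ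
  have hKT' : 1000 * C0 * T ≤ K0 * T := mul_le_mul_of_nonneg_right hK1 (by linarith)
  have hCTH : 1000 * C0 * T * H0 ≤ Q :=
    (mul_le_mul_of_nonneg_right hKT' (by linarith)).trans hQ'
  have hCT : T ≤ C0 * T := le_mul_of_one_le_left (by linarith) hC0
  have hTH1 : H0 ≤ T * H0 := le_mul_of_one_le_left (by linarith) hT1
  have hCTH1 : T * H0 ≤ C0 * T * H0 := mul_le_mul_of_nonneg_right hCT (by linarith)
  have hCTH2 : C0 * T ≤ C0 * T * H0 := le_mul_of_one_le_right (by linarith) hH0.le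
  have hε1 : ε ≤ 1 / 256 := by
    have h1 : 256 * ε ≤ K0 * T ^ 7 * H0 * ε := by
      have h3 : 256 ≤ K0 * T ^ 7 := by linarith
      have h2 : K0 * T ^ 7 ≤ K0 * T ^ 7 * H0 := le_mul_of_one_le_right (by linarith) hH0.le
      exact mul_le_mul_of_nonneg_right (by linarith) hε0
    linarith
  have hε2 : ε ≤ 1 / 16 := by linarith
  have hr3 : 3 ≤ r := by
    have : (3 : ℝ) ≤ r := by linarith
    exact_mod_cast this
  have hRT : C0 * 2 ^ ν ≤ C0 * T := mul_le_mul_of_nonneg_left hSν (by linarith)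
  have hTop := hM3 ι E hsub
  have hR0 : 0 ≤ C0 * 2 ^ ν := by positivity
  generalize hR : C0 * 2 ^ ν = R at *
  have hρT : 3 + S + (R + (R + S) * (1 / 4)) ≤ 7 * C0 * T := by linarith
  have hρ0 : 0 < 3 + S + (R + (R + S) * (1 / 4)) := by positivity
  have h2a : (0 : ℝ) < (1 / 2) ^ (a : ℕ) := by positivity
  have hN10 : 0 < H0 * (1 / 2) ^ (a : ℕ) / (2 * (3 + S + (R + (R + S) * (1 / 4)))) := by
    positivity
  obtain ⟨q, hq1, hq2⟩ := exists_q hN10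
  obtain ⟨Φ, _, hΦ0, hΦi, hΦI, hΦ⟩ := sparse3 (topSys u hu.meas hε0 hε2 hLip hE0 M hM2 hH0.le)
    (show ε ≤ 1 / 256 from hε1) (show (0 : ℝ) ≤ 7 + 2 * R by positivity) q
  have hcard := num_tubes hTr hX hS hSH hθ hr3 hR0 hTop hH0.le (by linarith) a hq2 hΦ
  -- the integral
  have hV := vol_fin hb
  have hVE : volume E0 = ENNReal.ofReal (volume E0).toReal := (ENNReal.ofReal_toReal hV).symm
  have hV0 : 0 ≤ (volume E0).toReal := ENNReal.toReal_nonneg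
  generalize (volume E0).toReal = V at *
  have hsum : ∑ m, ((1 / 2 : ℝ)) ^ M.j m ≤ 2 ^ (ν + 1) * V := by
    rw [hVE, ← ENNReal.ofReal_mul (by positivity),
      ENNReal.ofReal_le_ofReal_iff (by positivity)] at hM1
    exact hM1
  have hRsum : ∑ i, volume.real ((topSys u hu.meas hε0 hε2 hLip hE0 M hM2 hH0.le).R i) ≤
      4 * T * H0 * V := by
    have h1 : ∀ i ∈ (Finset.univ : Finset κ),
        volume.real ((topSys u hu.meas hε0 hε2 hLip hE0 M hM2 hH0.le).R i) =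
          (1 / 2) ^ M.j i * (2 * H0) := fun i _ => R_vol i
    rw [Finset.sum_congr rfl h1, ← Finset.sum_mul]
    calc (∑ m, ((1 / 2 : ℝ)) ^ M.j m) * (2 * H0) ≤ (2 ^ (ν + 1) * V) * (2 * H0) := by gcongr
      _ = 4 * 2 ^ ν * H0 * V := by rw [pow_succ]; ring
      _ ≤ 4 * T * H0 * V := by gcongr
  have hd : 1 / ((1 / 2 : ℝ) ^ (ν + 1)) ^ 2 ≤ 4 * T ^ 2 := by
    have e : ((1 : ℝ) / ((1 / 2) ^ (ν + 1)) ^ 2) = 4 * (2 ^ ν) ^ 2 := by
      rw [one_div_pow, pow_succ]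
      field_simp
      ring
    rw [e]
    gcongr
  have hmain : (1 / 2) ^ (a : ℕ) * ∫ z, Φ z ^ 2 ≤ K0 * T ^ 7 * V :=
    num1 hC0 hT1 hR0 hRT hρ0 hρT hV0 h2a hq1 (by positivity)
      (Finset.sum_nonneg fun i _ => measureReal_nonneg) hRsum hd hΦI
  have hlint : ∫⁻ z, ((act (X a) z).card : ℝ≥0∞) ^ 2 ≤ ENNReal.ofReal (∫ z, Φ z ^ 2) := by
    rw [ofReal_integral_eq_lintegral_ofReal hΦi
      (Filter.Eventually.of_forall fun z => sq_nonneg _)]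
    refine lintegral_mono fun z => ?_
    rw [ENNReal.ofReal_pow (hΦ0 z), ← ENNReal.ofReal_natCast]
    gcongr
    exact hcard z
  calc ENNReal.ofReal ((1 / 2) ^ (a : ℕ)) * ∫⁻ z, ((act (X a) z).card : ℝ≥0∞) ^ 2
      ≤ ENNReal.ofReal ((1 / 2) ^ (a : ℕ)) * ENNReal.ofReal (∫ z, Φ z ^ 2) := by gcongr
    _ = ENNReal.ofReal ((1 / 2) ^ (a : ℕ) * ∫ z, Φ z ^ 2) :=
        (ENNReal.ofReal_mul (by positivity)).symm
    _ ≤ ENNReal.ofReal (K0 * T ^ 7 * V) := ENNReal.ofReal_le_ofReal hmain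
    _ = ENNReal.ofReal (K0 * T ^ 7) * volume E0 := by
        rw [hVE, ENNReal.ofReal_mul (by positivity)]

end Vale.Agent.P112.H597.Gn
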