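import Vale.Agent.P112.H597.Sq
import Vale.Agent.P112.H22.GArcs

/-!
# P112 / H597: `[ARC]` = `H646.Gain.StArcs`, from the candidates (H597/Cands) and H22/GArcs
-/

open MeasureTheory Set
open scoped ENNReal

noncomputable section

namespace Vale.Agent.P112.H597.Gn

open Vale.Agent.P112.T Vale.Agent.P112.F30 Vale.Agent.P112.H8 Vale.Agent.P112.H646.Gain
open Vale.Agent.P112.H22.TopSys Vale.Agent.P112.H22.Cand

theorem cands : H22.GArcs.CandsP := by
  obtain ⟨C, hC, hT⟩ := tops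
  refine ⟨C, hC, ?_⟩
  intro u hu n ν E0 hE0 hb S Q H0 θ r hS hQ hH0 hSH _ hθ hr ι _ s E hTr hsub G N0 K _ X hX
  obtain ⟨κ, _, M, hM1, hM2, hM3⟩ := hT u hu E0 hE0 hb n ν
  refine ⟨κ, inferInstance, M, hM2, hM1, fun a z => ⟨fun i hi => ?_, fun i _ i' _ hii => ?_⟩⟩
  · refine ⟨cd u M (C * 2 ^ ν) E s H0 i z, fun t ht => mem_cd.1 ht, ?_⟩
    have h := cd_card hTr hX hS hSH hθ hr (by positivity : (0 : ℝ) ≤ C * 2 ^ ν) (hM3 ι E hsub) a z
      hi
    refine h.trans (le_of_eq ?_)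
    ring
  · exact pp hTr (by linarith) hQ hii z

theorem stArcs : H646.Gain.StArcs := H22.GArcs.stArcs_of cands

end Vale.Agent.P112.H597.Gn
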