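import Vale.Agent.P112.H295.Sparse

/-!
# P112 / H597: the sparse Kakeya theorem with one dominating function

`sparse_fun` : for a system of dense tubes and `q : ℕ` there is ONE measurable function `Φ` with
`∫ Φ² ≤ C / (q + 1) * ∑ |R|` which dominates, at every point, the number of separated groups of
at least `q + 1` tubes. (Proof of H295, the function is the average over the sparsifications.)
-/

open MeasureTheory Set Vale.Agent.P112.H310 Vale.Agent.P112.H295
open scoped ENNReal BigOperators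

namespace Vale.Agent.P112.H597

open Classical in
theorem sparse_fun {ι : Type*} [Fintype ι] (S : SysV ι) {B : ℝ} (hB : 0 ≤ B) (q : ℕ) :
    ∃ Φ : ℝ × ℝ → ℝ, Measurable Φ ∧ (∀ z, 0 ≤ Φ z) ∧ Integrable (fun z => Φ z ^ 2) ∧
      ∫ z, Φ z ^ 2 ≤ 262272 * (S.L B) ^ 3 / S.δ ^ 2 *
        ((∑ i, volume.real (S.R i)) / (q + 1)) ∧
      ∀ (z : ℝ × ℝ) {κ : Type} [Fintype κ] (g : κ → Finset ι),
        (∀ a, q + 1 ≤ (g a).card) →
        (∀ a, ∀ t ∈ g a, z.1 ∈ S.I t ∧ |z.2 - S.line t z.1| ≤ B * S.w) →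
        (∀ a a', a ≠ a' → ∀ t ∈ g a, ∀ t' ∈ g a', ∀ j, S.Above j t → ¬ S.Above j t') →
        (Fintype.card κ : ℝ) ≤ Φ z := by
  choose F hFm hF0 hFi hFI hFc using fun T : Finset ι => S.exists_count hB T
  set W : (ι → Fin (q + 1)) → Finset ι := fun r => Finset.univ.filter (fun t => r t = 0) with hW
  set Q : ℝ := ((q : ℝ) + 1) ^ Fintype.card ι with hQ
  have hQpos : 0 < Q := by positivity
  have hcardr : (Fintype.card (ι → Fin (q + 1)) : ℝ) = Q := by
    rw [Fintype.card_fun, Fintype.card_fin]; push_cast; rfl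
  have hL := S.L_pos hB
  have hδ := S.δ_pos
  set Φ : ℝ × ℝ → ℝ := fun z => (2 / Q) * ∑ r, F (W r) z with hΦ
  have hΦm : Measurable Φ :=
    (Finset.measurable_sum _ (fun r _ => hFm (W r))).const_mul _
  have hΦ0 : ∀ z, 0 ≤ Φ z := fun z => by
    have : 0 ≤ ∑ r, F (W r) z := Finset.sum_nonneg (fun r _ => hF0 (W r) z)
    show 0 ≤ (2 / Q) * ∑ r, F (W r) z
    positivity
  have hsq : ∀ z, Φ z ^ 2 ≤ (4 / Q) * ∑ r, F (W r) z ^ 2 := by
    intro z
    have e2 : (∑ r, F (W r) z) ^ 2 ≤ Q * ∑ r, F (W r) z ^ 2 := by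
      have := sq_sum_le_card_mul_sum_sq (s := (Finset.univ : Finset (ι → Fin (q + 1))))
        (f := fun r => F (W r) z)
      rw [Finset.card_univ, hcardr] at this
      exact this
    calc Φ z ^ 2 = (4 / Q ^ 2) * (∑ r, F (W r) z) ^ 2 := by
          show ((2 / Q) * ∑ r, F (W r) z) ^ 2 = _
          field_simp
          ring
      _ ≤ (4 / Q ^ 2) * (Q * ∑ r, F (W r) z ^ 2) :=
          mul_le_mul_of_nonneg_left e2 (by positivity)
      _ = (4 / Q) * ∑ r, F (W r) z ^ 2 := by field_simp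
  have hint : Integrable (fun z => (4 / Q) * ∑ r, F (W r) z ^ 2) :=
    (integrable_finsetSum _ (fun r _ => hFi (W r))).const_mul _
  have hΦi : Integrable (fun z => Φ z ^ 2) := by
    refine hint.mono' (hΦm.pow_const 2).aestronglyMeasurable
      (Filter.Eventually.of_forall fun z => ?_)
    rw [Real.norm_eq_abs, abs_of_nonneg (sq_nonneg _)]
    exact hsq z
  refine ⟨Φ, hΦm, hΦ0, hΦi, ?_, ?_⟩
  · refine (integral_mono hΦi hint hsq).trans ?_
    rw [integral_const_mul, integral_finsetSum _ (fun r _ => hFi (W r))]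
    have e1 : ∑ r, ∫ z, F (W r) z ^ 2 ≤ ∑ r, 65568 * (S.L B) ^ 3 / S.δ ^ 2 *
        ∑ i ∈ W r, volume.real (S.R i) := Finset.sum_le_sum (fun r _ => hFI (W r))
    have e2 : ∑ r, ∑ i ∈ W r, volume.real (S.R i) =
        (Q / (q + 1)) * ∑ i, volume.real (S.R i) := by
      calc ∑ r, ∑ i ∈ W r, volume.real (S.R i) =
          ∑ r : ι → Fin (q + 1), ∑ i, if r i = 0 then volume.real (S.R i) else 0 := by
            apply Finset.sum_congr rfl
            intro r _
            rw [hW, Finset.sum_filter]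
        _ = ∑ i, ∑ r : ι → Fin (q + 1), if r i = 0 then volume.real (S.R i) else 0 :=
            Finset.sum_comm
        _ = ∑ i, (Q / (q + 1)) * volume.real (S.R i) := by
            apply Finset.sum_congr rfl
            intro i _
            rw [← Finset.sum_filter, Finset.sum_const, nsmul_eq_mul]
            congr 1
            rw [eq_div_iff (by positivity)]
            exact card_keep i
        _ = _ := by rw [Finset.mul_sum]
    calc 4 / Q * ∑ r, ∫ z, F (W r) z ^ 2 ≤
        4 / Q * ∑ r, 65568 * (S.L B) ^ 3 / S.δ ^ 2 * ∑ i ∈ W r, volume.real (S.R i) :=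
          mul_le_mul_of_nonneg_left e1 (by positivity)
      _ = 262272 * (S.L B) ^ 3 / S.δ ^ 2 * ((∑ i, volume.real (S.R i)) / (q + 1)) := by
          rw [← Finset.mul_sum, e2]
          field_simp
          ring
  · intro z κ _ g hg1 hg2 hg3
    have e1 : ∀ r, ((Finset.univ.filter (fun a : κ => ∃ t ∈ g a, r t = 0)).card : ℝ) ≤
        F (W r) z := by
      intro r
      apply hFc (W r) z g hg2 hg3
      intro a ha
      obtain ⟨t, ht, hr⟩ := (Finset.mem_filter.1 ha).2
      exact ⟨t, ht, by rw [hW]; exact Finset.mem_filter.2 ⟨Finset.mem_univ _, hr⟩⟩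
    have e2 : ∑ r : ι → Fin (q + 1),
        ((Finset.univ.filter (fun a : κ => ∃ t ∈ g a, r t = 0)).card : ℝ) =
        ∑ a : κ, ((Finset.univ.filter
          (fun r : ι → Fin (q + 1) => ∃ t ∈ g a, r t = 0)).card : ℝ) := by
      simp_rw [Finset.card_filter]
      push_cast
      exact Finset.sum_comm
    have e3 : ∀ a : κ, Q ≤ 2 * ((Finset.univ.filter
          (fun r : ι → Fin (q + 1) => ∃ t ∈ g a, r t = 0)).card : ℝ) := by
      intro a
      have := hit_half (hg1 a)
      push_cast at this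
      exact this
    have e4 : Q * (Fintype.card κ : ℝ) ≤ 2 * ∑ r, F (W r) z := by
      calc Q * (Fintype.card κ : ℝ) = ∑ _a : κ, Q := by
            rw [Finset.sum_const, Finset.card_univ, nsmul_eq_mul]; ring
        _ ≤ ∑ a : κ, 2 * ((Finset.univ.filter
            (fun r : ι → Fin (q + 1) => ∃ t ∈ g a, r t = 0)).card : ℝ) :=
            Finset.sum_le_sum (fun a _ => e3 a)
        _ = 2 * ∑ r : ι → Fin (q + 1),
          ((Finset.univ.filter (fun a : κ => ∃ t ∈ g a, r t = 0)).card : ℝ) := by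
            rw [e2, Finset.mul_sum]
        _ ≤ 2 * ∑ r, F (W r) z :=
            mul_le_mul_of_nonneg_left (Finset.sum_le_sum (fun r _ => e1 r)) (by norm_num)
    show (Fintype.card κ : ℝ) ≤ (2 / Q) * ∑ r, F (W r) z
    rw [div_mul_eq_mul_div, le_div_iff₀ hQpos]
    linarith

end Vale.Agent.P112.H597
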