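import Vale.Agent.P112.H597.Fun

/-!
# P112 / H597: wide intervals. The two grids and the star systems

`J3 k m` is the interval of length `3 * 2 ^ (-k)` around the dyadic interval `D k m`. It lies in a
cell of length `16 * 2 ^ (-k)` of one of two (shifted, scaled) dyadic grids: `x / 16 ∈ D k m'` or
`x / 16 - 1 / 3 ∈ D k m'`. `star` is the corresponding system of tubes (scaled by `16` in `x`).
-/

open MeasureTheory Set Vale.Agent.P112.H310 Vale.Agent.P112.H295
open scoped ENNReal BigOperators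

namespace Vale.Agent.P112.H597

/-- the interval `D k m` enlarged by its length on both sides -/
def J3 (k : ℕ) (m : ℤ) : Set ℝ := Set.Ico (((m : ℝ) - 1) / 2 ^ k) (((m : ℝ) + 2) / 2 ^ k)

theorem mem_J3 {k : ℕ} {m : ℤ} {x y : ℝ} (hx : x ∈ D k m) (h : |y - x| ≤ (2 : ℝ)⁻¹ ^ k) :
    y ∈ J3 k m := by
  have hp : (0 : ℝ) < 2 ^ k := by positivity
  have e : (2 : ℝ)⁻¹ ^ k = 1 / 2 ^ k := by rw [inv_pow, one_div]
  rw [e] at h
  obtain ⟨h1, h2⟩ := hx
  have e1 : ((m : ℝ) - 1) / 2 ^ k = (m : ℝ) / 2 ^ k - 1 / 2 ^ k := by ring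
  have e2 : ((m : ℝ) + 2) / 2 ^ k = ((m : ℝ) + 1) / 2 ^ k + 1 / 2 ^ k := by ring
  rw [abs_le] at h
  refine ⟨?_, ?_⟩
  · rw [e1]; linarith [h.1]
  · rw [e2]; linarith [h.2]

theorem D_subset_J3 (k : ℕ) (m : ℤ) : D k m ⊆ J3 k m := fun x hx =>
  mem_J3 hx (by rw [sub_self, abs_zero]; positivity)

theorem measurableSet_J3 (k : ℕ) (m : ℤ) : MeasurableSet (J3 k m) := measurableSet_Ico

/-- shift of the grid -/
noncomputable def sh (b : Bool) : ℝ := if b then 1 / 3 else 0

theorem two_pow_third (k : ℕ) : ∃ a : ℤ, (2 : ℝ) ^ k / 3 = a + 1 / 3 ∨ (2 : ℝ) ^ k / 3 = a + 2 / 3 := by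
  induction k with
  | zero => exact ⟨0, Or.inl (by norm_num)⟩
  | succ k ih =>
    obtain ⟨a, h | h⟩ := ih
    · refine ⟨2 * a, Or.inr ?_⟩
      have : (2 : ℝ) ^ (k + 1) / 3 = 2 * ((2 : ℝ) ^ k / 3) := by rw [pow_succ]; ring
      rw [this, h]; push_cast; ring
    · refine ⟨2 * a + 1, Or.inl ?_⟩
      have : (2 : ℝ) ^ (k + 1) / 3 = 2 * ((2 : ℝ) ^ k / 3) := by rw [pow_succ]; ring
      rw [this, h]; push_cast; ring

/-- **two grids.** -/
theorem two_cells (k : ℕ) (m : ℤ) : ∃ (b : Bool) (m' : ℤ), ∀ x ∈ J3 k m,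
    x / 16 - sh b ∈ D k m' := by
  have hp : (0 : ℝ) < 2 ^ k := by positivity
  -- the points are `X = x 2 ^ k / 16` in `[(m - 1) / 16, (m + 2) / 16)`
  have hX : ∀ x ∈ J3 k m, ((m : ℝ) - 1) / 16 ≤ x / 16 * 2 ^ k ∧
      x / 16 * 2 ^ k < ((m : ℝ) + 2) / 16 := by
    intro x hx
    obtain ⟨h1, h2⟩ := hx
    rw [div_le_iff₀ hp] at h1
    rw [lt_div_iff₀ hp] at h2
    constructor <;> linarith
  by_cases hc : ∃ M : ℤ, ((m : ℝ) - 1) / 16 < M ∧ (M : ℝ) < ((m : ℝ) + 2) / 16
  · obtain ⟨M, hM1, hM2⟩ := hc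
    obtain ⟨a, ha⟩ := two_pow_third k
    refine ⟨true, M - a - 1, fun x hx => ?_⟩
    obtain ⟨h1, h2⟩ := hX x hx
    rw [mem_D, Int.floor_eq_iff]
    have e : (x / 16 - sh true) * 2 ^ k = x / 16 * 2 ^ k - 2 ^ k / 3 := by
      simp only [sh, if_true]; ring
    rw [e]
    push_cast
    rcases ha with h | h <;> rw [h] <;> constructor <;> linarith
  · push Not at hc
    refine ⟨false, ⌊((m : ℝ) - 1) / 16⌋, fun x hx => ?_⟩
    obtain ⟨h1, h2⟩ := hX x hx
    rw [mem_D, Int.floor_eq_iff]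
    have e : (x / 16 - sh false) * 2 ^ k = x / 16 * 2 ^ k := by
      simp [sh]
    rw [e]
    refine ⟨(Int.floor_le _).trans h1, ?_⟩
    have h3 := hc (⌊((m : ℝ) - 1) / 16⌋ + 1) (by push_cast; exact Int.lt_floor_add_one _)
    push_cast at h3
    exact lt_of_lt_of_le h2 h3

/-- the grid of the wide interval of a tube -/
noncomputable def gr (k : ℕ) (m : ℤ) : Bool := (two_cells k m).choose

/-- the cell of the wide interval of a tube -/
noncomputable def ce (k : ℕ) (m : ℤ) : ℤ := (two_cells k m).choose_spec.choose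

theorem mem_ce {k : ℕ} {m : ℤ} {x : ℝ} (hx : x ∈ J3 k m) :
    x / 16 - sh (gr k m) ∈ D k (ce k m) :=
  (two_cells k m).choose_spec.choose_spec x hx

/-! ### volumes under the scaling -/

/-- the scaling map -/
def sc (τ : ℝ) (p : ℝ × ℝ) : ℝ × ℝ := (16 * (p.1 + τ), p.2)

theorem measurable_sc (τ : ℝ) : Measurable (sc τ) := by unfold sc; fun_prop

theorem lintegral_sc (τ : ℝ) {f : ℝ × ℝ → ℝ≥0∞} (hf : Measurable f) :
    ∫⁻ p, f (sc τ p) = ENNReal.ofReal (1 / 16) * ∫⁻ z, f z := by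
  have hg : Measurable fun p => f (sc τ p) := hf.comp (measurable_sc τ)
  rw [Measure.volume_eq_prod, lintegral_prod_symm (fun p => f (sc τ p)) hg.aemeasurable,
    lintegral_prod_symm f hf.aemeasurable,
    ← lintegral_const_mul _ hf.lintegral_prod_left']
  refine lintegral_congr fun y => ?_
  have hfy : Measurable fun x => f (x, y) := hf.comp (by fun_prop)
  have h1 : ∫⁻ x : ℝ, f (sc τ (x, y)) = ∫⁻ x : ℝ, f (16 * (x + τ), y) := rfl
  rw [h1]
  have h2 : ∫⁻ x : ℝ, f (16 * (x + τ), y) = ∫⁻ x : ℝ, f (16 * x, y) :=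
    lintegral_add_right_eq_self (fun x : ℝ => f (16 * x, y)) τ
  rw [h2]
  have h3 := Real.map_volume_mul_left (a := (16 : ℝ)) (by norm_num)
  have h4 : ∫⁻ x : ℝ, f (16 * x, y) = ∫⁻ x, f (x, y) ∂(Measure.map (16 * ·) volume) := by
    rw [lintegral_map hfy (by fun_prop)]
  rw [h4, h3, lintegral_smul_measure]
  rw [show |(16 : ℝ)⁻¹| = 1 / 16 by rw [abs_of_pos (by norm_num)]; norm_num]
  rfl

theorem volume_sc (τ : ℝ) {X : Set (ℝ × ℝ)} (hX : MeasurableSet X) :
    volume (sc τ ⁻¹' X) = ENNReal.ofReal (1 / 16) * volume X := by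
  have h := lintegral_sc τ (f := X.indicator 1) (measurable_one.indicator hX)
  rw [lintegral_indicator_one hX] at h
  rw [← h, ← lintegral_indicator_one (hX.preimage (measurable_sc τ))]
  rfl

theorem volume_real_sc (τ : ℝ) {X : Set (ℝ × ℝ)} (hX : MeasurableSet X) :
    volume.real (sc τ ⁻¹' X) = volume.real X / 16 := by
  rw [Measure.real, volume_sc τ hX, ENNReal.toReal_mul, ENNReal.toReal_ofReal (by norm_num)]
  rw [Measure.real]; ring

/-! ### the star system -/

variable {ι : Type*}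

/-- the tubes of grid `b` of a system, over the wide cells, scaled by `16` in `x` -/
noncomputable def star (S : SysV ι) (hε : S.ε ≤ 1 / 256) (b : Bool) :
    SysV {i : ι // gr (S.k i) (S.m i) = b} where
  w := S.w
  A := 16 * S.A
  δ := S.δ / 16
  ε := 16 * S.ε
  u := fun X y => 16 * S.u (16 * (X + sh b)) y
  k := fun i => S.k i
  m := fun i => ce (S.k i) (S.m i)
  s := fun i => 16 * S.s i
  b := fun i => S.b i + S.s i * (16 * sh b)
  V := fun i => sc (sh b) ⁻¹' (S.V i)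
  w_pos := S.w_pos
  one_le_A := by have := S.one_le_A; linarith
  δ_pos := by have := S.δ_pos; positivity
  ε_nonneg := by have := S.ε_nonneg; positivity
  ε_le := by linarith
  u_meas := by
    have : Function.uncurry (fun X y => 16 * S.u (16 * (X + sh b)) y) =
        fun p : ℝ × ℝ => 16 * Function.uncurry S.u (16 * (p.1 + sh b), p.2) := by
      funext p; rfl
    rw [this]
    exact (S.u_meas.comp (by fun_prop)).const_mul 16
  u_lip := fun x y y' => by
    rw [← mul_sub, abs_mul, abs_of_pos (by norm_num : (0 : ℝ) < 16), mul_assoc]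
    exact mul_le_mul_of_nonneg_left (S.u_lip _ _ _) (by norm_num)
  V_meas := fun i => (S.V_meas i).preimage (measurable_sc _)
  V_sub := fun i p hp => by
    have h := S.V_sub i hp
    refine ⟨?_, ?_⟩
    · have h1 := mem_ce (D_subset_J3 _ _ h.1)
      rw [i.2] at h1
      have e : (sc (sh b) p).1 / 16 - sh b = p.1 := by simp only [sc]; ring
      rw [e] at h1
      exact h1
    · have h2 := h.2
      simp only [sc] at h2
      have e : S.b i + S.s i * (16 * sh b) + 16 * S.s i * p.1 =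
        S.b i + S.s i * (16 * (p.1 + sh b)) := by ring
      show |p.2 - (S.b i + S.s i * (16 * sh b) + 16 * S.s i * p.1)| ≤ S.w
      rw [e]; exact h2
  V_slope := fun i p hp => by
    have h := S.V_slope i _ hp
    simp only [sc] at h
    show |16 * S.u (16 * (p.1 + sh b)) p.2 - 16 * S.s i| ≤ 16 * S.A * S.w / (2 : ℝ)⁻¹ ^ S.k i
    rw [← mul_sub, abs_mul, abs_of_pos (by norm_num : (0 : ℝ) < 16)]
    calc 16 * |S.u (16 * (p.1 + sh b)) p.2 - S.s i| ≤ 16 * (S.A * S.w / (2 : ℝ)⁻¹ ^ S.k i) :=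
          mul_le_mul_of_nonneg_left h (by norm_num)
      _ = _ := by ring
  V_dens := fun i => by
    have h := S.V_dens i
    have hw := S.w_pos
    rw [volume_real_sc _ (S.V_meas i)]
    have e1 : volume.real (Reg (D (S.k i) (ce (S.k i) (S.m i)))
        (fun x => S.b i + S.s i * (16 * sh b) + 16 * S.s i * x) S.w) =
        (2 : ℝ)⁻¹ ^ S.k i * (2 * S.w) := by
      rw [Measure.real, volume_Reg (measurableSet_D _ _) (by fun_prop), volume_D,
        ← ENNReal.ofReal_mul (by positivity), ENNReal.toReal_ofReal (by positivity)]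
    have e2 : volume.real (Reg (D (S.k i) (S.m i)) (fun x => S.b i + S.s i * x) S.w) =
        (2 : ℝ)⁻¹ ^ S.k i * (2 * S.w) := by
      rw [Measure.real, volume_Reg (measurableSet_D _ _) (by fun_prop), volume_D,
        ← ENNReal.ofReal_mul (by positivity), ENNReal.toReal_ofReal (by positivity)]
    rw [e2] at h
    rw [e1]
    linarith

theorem star_above (S : SysV ι) (hε : S.ε ≤ 1 / 256) (b : Bool)
    {i j : {i : ι // gr (S.k i) (S.m i) = b}} (h : (star S hε b).Above j i) :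
    S.Above (j : ι) (i : ι) := by
  rcases h with h | ⟨h1, p, hp1, hp2⟩
  · left; rw [h]
  · right
    exact ⟨h1, ⟨sc (sh b) p, hp1, hp2⟩⟩

theorem star_R (S : SysV ι) (hε : S.ε ≤ 1 / 256) (b : Bool)
    (i : {i : ι // gr (S.k i) (S.m i) = b}) :
    volume.real ((star S hε b).R i) = volume.real (S.R i) := by
  rw [SysV.vr_R, SysV.vr_R]
  rfl

theorem star_L (S : SysV ι) (hε : S.ε ≤ 1 / 256) (b : Bool) (B : ℝ) :
    (star S hε b).L B = B + 2 + 32 * S.A := by
  unfold SysV.L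
  show B + 2 + 2 * (16 * S.A) = _
  ring

theorem star_mem (S : SysV ι) (hε : S.ε ≤ 1 / 256) (b : Bool)
    (i : {i : ι // gr (S.k i) (S.m i) = b}) {z : ℝ × ℝ} {r : ℝ}
    (h1 : z.1 ∈ J3 (S.k i) (S.m i)) (h2 : |z.2 - S.line i z.1| ≤ r) :
    z.1 / 16 - sh b ∈ (star S hε b).I i ∧
      |z.2 - (star S hε b).line i (z.1 / 16 - sh b)| ≤ r := by
  refine ⟨?_, ?_⟩
  · have h := mem_ce h1
    rw [i.2] at h
    exact h
  · have e : (star S hε b).line i (z.1 / 16 - sh b) = S.line i z.1 := by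
      show S.b i + S.s i * (16 * sh b) + 16 * S.s i * (z.1 / 16 - sh b) = S.b i + S.s i * z.1
      ring
    rw [e]; exact h2

end Vale.Agent.P112.H597
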